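import Vale.Agent.P095.Equiv.OmegaDefs

/-!
# P095: `F_ω(A) = (A_ω ∩ A') / Ann(A)` for algebras without unit

The central sequence algebra of the unitization acts by multipliers on the subalgebra of `Ã_ω`
generated by `A`; `FA A ω` is the closure of its image, so the annihilator of `A` disappears.
-/

namespace Vale.Agent.P095.All

open Filter Topology Vale.Agent.P101.KR Vale.Agent.P095.Equiv
open scoped MultiplierAlgebra

noncomputable section

variable (A : Type) [NonUnitalCStarAlgebra A] (ω : Ultrafilter ℕ)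

/-- `A` in the ultrapower of its unitization. -/
def embA : A →⋆ₙₐ[ℂ] AOmega (Unitization ℂ A) ω :=
  (emb ω).toNonUnitalStarAlgHom.comp (Unitization.inrNonUnitalStarAlgHom ℂ A)

/-- The products `a z b` with `a`, `b` in `A`. -/
def herGen : Set (AOmega (Unitization ℂ A) ω) :=
  Set.range fun p : A × AOmega (Unitization ℂ A) ω × A => embA A ω p.1 * p.2.1 * embA A ω p.2.2

/-- The closed subalgebra of `Ã_ω` generated by `A Ã_ω A`. -/
def her : NonUnitalStarSubalgebra ℂ (AOmega (Unitization ℂ A) ω) :=
  (NonUnitalStarAlgebra.adjoin ℂ (herGen A ω)).topologicalClosure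

instance isClosed_her : IsClosed (her A ω : Set (AOmega (Unitization ℂ A) ω)) :=
  NonUnitalStarSubalgebra.isClosed_topologicalClosure _

variable {A ω}

theorem embA_central (x : CentralAlgebra ω (Unitization ℂ A)) (a : A) :
    embA A ω a * (x : AOmega (Unitization ℂ A) ω) = (x : AOmega (Unitization ℂ A) ω) * embA A ω a :=
  mem_central.1 x.2 _

theorem mul_mem_her (x : CentralAlgebra ω (Unitization ℂ A)) {y : AOmega (Unitization ℂ A) ω}
    (hy : y ∈ her A ω) :
    (x : AOmega (Unitization ℂ A) ω) * y ∈ her A ω ∧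
      y * (x : AOmega (Unitization ℂ A) ω) ∈ her A ω := by
  set Q := NonUnitalStarAlgebra.adjoin ℂ (herGen A ω)
  have key : ∀ z ∈ Q, ∀ x : CentralAlgebra ω (Unitization ℂ A),
      (x : AOmega (Unitization ℂ A) ω) * z ∈ Q ∧ z * (x : AOmega (Unitization ℂ A) ω) ∈ Q := by
    intro z hz
    induction hz using NonUnitalStarAlgebra.adjoin_induction with
    | mem z hz =>
      obtain ⟨⟨a, w, b⟩, rfl⟩ := hz
      intro x
      refine ⟨NonUnitalStarAlgebra.subset_adjoin ℂ _ ⟨(a, x.1 * w, b), ?_⟩,
        NonUnitalStarAlgebra.subset_adjoin ℂ _ ⟨(a, w * x.1, b), ?_⟩⟩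
      · show embA A ω a * (x.1 * w) * embA A ω b = x.1 * (embA A ω a * w * embA A ω b)
        rw [← mul_assoc, ← mul_assoc, ← mul_assoc, embA_central]
      · show embA A ω a * (w * x.1) * embA A ω b = embA A ω a * w * embA A ω b * x.1
        rw [mul_assoc (embA A ω a * w), embA_central]
        simp only [mul_assoc]
    | add p q _ _ hp hq =>
      exact fun x => ⟨by rw [mul_add]; exact add_mem (hp x).1 (hq x).1,
        by rw [add_mul]; exact add_mem (hp x).2 (hq x).2⟩
    | zero => exact fun x => ⟨by rw [mul_zero]; exact zero_mem _, by rw [zero_mul]; exact zero_mem _⟩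
    | mul p q hpQ hqQ hp hq =>
      exact fun x => ⟨by rw [← mul_assoc]; exact mul_mem (hp x).1 hqQ,
        by rw [mul_assoc]; exact mul_mem hpQ (hq x).2⟩
    | smul r p _ hp =>
      exact fun x => ⟨by rw [mul_smul_comm]; exact SMulMemClass.smul_mem _ (hp x).1,
        by rw [smul_mul_assoc]; exact SMulMemClass.smul_mem _ (hp x).2⟩
    | star p _ hp =>
      exact fun x => ⟨by
          have := star_mem (hp (star x)).2
          simpa using this, by
          have := star_mem (hp (star x)).1
          simpa using this⟩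
  have hy' : y ∈ closure (Q : Set (AOmega (Unitization ℂ A) ω)) := hy
  exact ⟨map_mem_closure (f := fun z => (x : AOmega (Unitization ℂ A) ω) * z) (by fun_prop) hy'
      fun z hz => (key z hz x).1,
    map_mem_closure (f := fun z => z * (x : AOmega (Unitization ℂ A) ω)) (by fun_prop) hy'
      fun z hz => (key z hz x).2⟩

variable (A ω)

/-- A central element as a multiplier of `her A ω`. -/
def toMult (x : CentralAlgebra ω (Unitization ℂ A)) : 𝓜(ℂ, her A ω) where
  toProd :=
    (LinearMap.mkContinuous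
      { toFun := fun y => ⟨x.1 * y.1, (mul_mem_her x y.2).1⟩
        map_add' := fun y z => Subtype.ext (mul_add _ _ _)
        map_smul' := fun r y => Subtype.ext (mul_smul_comm r _ _) } ‖x‖ fun y => norm_mul_le x.1 y.1,
    LinearMap.mkContinuous
      { toFun := fun y => ⟨y.1 * x.1, (mul_mem_her x y.2).2⟩
        map_add' := fun y z => Subtype.ext (add_mul _ _ _)
        map_smul' := fun r y => Subtype.ext (smul_mul_assoc r _ _) } ‖x‖ fun y =>
      (norm_mul_le y.1 x.1).trans_eq (mul_comm _ _))
  central _ _ := Subtype.ext (mul_assoc _ _ _)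

theorem toMult_fst (x : CentralAlgebra ω (Unitization ℂ A)) (y : her A ω) :
    ((toMult A ω x).fst y : AOmega (Unitization ℂ A) ω) = x.1 * y.1 := rfl

theorem toMult_snd (x : CentralAlgebra ω (Unitization ℂ A)) (y : her A ω) :
    ((toMult A ω x).snd y : AOmega (Unitization ℂ A) ω) = y.1 * x.1 := rfl

theorem toMult_ext {M N : 𝓜(ℂ, her A ω)}
    (h₁ : ∀ y, (M.fst y : AOmega (Unitization ℂ A) ω) = N.fst y)
    (h₂ : ∀ y, (M.snd y : AOmega (Unitization ℂ A) ω) = N.snd y) : M = N :=
  DoubleCentralizer.ext _ _ _ _ (Prod.ext (ContinuousLinearMap.ext fun y => Subtype.ext (h₁ y))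
    (ContinuousLinearMap.ext fun y => Subtype.ext (h₂ y)))

/-- The representation of the central algebra. -/
def rep : CentralAlgebra ω (Unitization ℂ A) →⋆ₐ[ℂ] 𝓜(ℂ, her A ω) where
  toFun := toMult A ω
  map_one' := by
    apply toMult_ext <;> intro y <;> simp [toMult_fst, toMult_snd]
  map_zero' := by
    apply toMult_ext <;> intro y <;> simp [toMult_fst, toMult_snd]
  map_mul' x z := by
    apply toMult_ext <;> intro y <;> simp [toMult_fst, toMult_snd, mul_assoc]
  map_add' x z := by
    apply toMult_ext <;> intro y <;> simp [toMult_fst, toMult_snd, add_mul, mul_add]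
  commutes' r := by
    apply toMult_ext <;> intro y <;>
      simp [toMult_fst, toMult_snd, Algebra.algebraMap_eq_smul_one]
  map_star' x := by
    apply toMult_ext <;> intro y <;> simp [toMult_fst, toMult_snd]

/-- `F_ω(A)`, inside the multipliers of `her A ω`. -/
def FAlg : StarSubalgebra ℂ 𝓜(ℂ, her A ω) := (rep A ω).range.topologicalClosure

instance isClosed_FAlg : IsClosed (FAlg A ω : Set 𝓜(ℂ, her A ω)) :=
  StarSubalgebra.isClosed_topologicalClosure _

/-- `F_ω(A)` as a C*-algebra. -/
abbrev FA : Type := FAlg A ω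

/-- The quotient map. -/
def proj : CentralAlgebra ω (Unitization ℂ A) →⋆ₐ[ℂ] FA A ω :=
  (rep A ω).codRestrict (FAlg A ω) fun x => StarSubalgebra.le_topologicalClosure _ ⟨x, rfl⟩

/-- `f` is the action induced by `α` on `F_ω(A)`. -/
def IsInduced {G : Type} (α : G → A ≃⋆ₐ[ℂ] A) (f : G → FA A ω ≃⋆ₐ[ℂ] FA A ω) : Prop :=
  ∀ g (x y : CentralAlgebra ω (Unitization ℂ A)), (y : AOmega (Unitization ℂ A) ω) =
      omegaMap ω (Unitization.starMap (α g : A →⋆ₙₐ[ℂ] A)) x.1 →
    f g (proj A ω x) = proj A ω y

end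

end Vale.Agent.P095.All
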