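import Vale.Agent.P095.All.Defs
import Vale.Agent.P095.All.NonUnital
import Vale.Agent.P095.All.FA.Defs
import Vale.Agent.P101.Bridge.Interfaces

/-!
# P095: interfaces of the layer for algebras without unit
-/

namespace Vale.Agent.P095.All

open TopologicalSpace Vale.Agent.P101.KR Vale.Agent.P101.Bridge Vale.Agent.P095.Equiv
open scoped MultiplierAlgebra

noncomputable section

/-- Nuclearity gives `TraceDim` on `F_ω(A)`. -/
def TraceDimFATarget : Prop :=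
  ∀ (A : Type) [NonUnitalCStarAlgebra A] [SeparableSpace A] (ω : Ultrafilter ℕ),
    (ω : Filter ℕ) ≤ Filter.cofinite → HasCPAP A → NoCharacter (FA A ω) → TraceDim (FA A ω)

/-- The induced action; it gives a setting for every finitely generated amenable group mapped to
`G`. -/
def FASettingTarget : Prop :=
  ∀ (G : Type) [Group G] [Countable G] (A : Type) [NonUnitalCStarAlgebra A] [SeparableSpace A]
    (ω : Ultrafilter ℕ), (ω : Filter ℕ) ≤ Filter.cofinite → HasDropRelations A ω →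
    ∀ (α : G → A ≃⋆ₐ[ℂ] A), (∀ g h a, α (g * h) a = α g (α h a)) →
      NoCharacter (FA A ω) ∧ ∃ β : G → FA A ω ≃⋆ₐ[ℂ] FA A ω, IsInduced A ω α β ∧
        (∀ g h x, β (g * h) x = β g (β h x)) ∧
        ∀ (H : Subgroup G) (S : Finset H), IsAmenable H → Subgroup.closure (S : Set H) = ⊤ →
          TraceDim (FA A ω) → Setting (fun h : H => β h) S

/-- Fixed algebras without characters, for every finitely generated subgroup, give a fixed map
from `D`. -/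
def FixedMapFATarget : Prop :=
  ∀ (G : Type) [Group G] [Countable G] (A : Type) [NonUnitalCStarAlgebra A] [SeparableSpace A]
    (ω : Ultrafilter ℕ), (ω : Filter ℕ) ≤ Filter.cofinite → HasDropRelations A ω →
    ∀ (α : G → A ≃⋆ₐ[ℂ] A), (∀ g h a, α (g * h) a = α g (α h a)) →
    ∀ (β : G → FA A ω ≃⋆ₐ[ℂ] FA A ω), IsInduced A ω α β →
      (∀ H : Subgroup G, H.FG → IsEmpty (fixedAll (fun h : H => β h) →⋆ₐ[ℂ] ℂ)) →
      ∀ (D : Type) [CStarAlgebra D], IsJiangSu D →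
        ∃ ψ : D →⋆ₐ[ℂ] FA A ω, ∀ g d, β g (ψ d) = ψ d

/-- A fixed map gives cocycle conjugacy with every extension. -/
def AbsorbFATarget : Prop :=
  ∀ (G : Type) [Group G] [Countable G] (A C D : Type) [NonUnitalCStarAlgebra A]
    [NonUnitalCStarAlgebra C] [CStarAlgebra D] [SeparableSpace A] [SeparableSpace D]
    (ω : Ultrafilter ℕ), (ω : Filter ℕ) ≤ Filter.cofinite → IsJiangSu D →
    ∀ (α : G → A ≃⋆ₐ[ℂ] A) (β : G → FA A ω ≃⋆ₐ[ℂ] FA A ω), IsInduced A ω α β →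
    ∀ ψ : D →⋆ₐ[ℂ] FA A ω, (∀ g d, β g (ψ d) = ψ d) →
    ∀ (ιA : A →⋆ₙₐ[ℂ] C) (ιD : D →⋆ₐ[ℂ] 𝓜(ℂ, C)) (γ : G → C ≃⋆ₐ[ℂ] C),
      IsTensorGen ιA ιD → IsExtension α ιA ιD γ → CocycleConjugate α γ

/-- A fixed map gives an extension. -/
def ExistsFATarget : Prop :=
  ∀ (G : Type) [Group G] [Countable G] (A D : Type) [NonUnitalCStarAlgebra A] [CStarAlgebra D]
    [SeparableSpace A] (ω : Ultrafilter ℕ), (ω : Filter ℕ) ≤ Filter.cofinite →
    ∀ (α : G → A ≃⋆ₐ[ℂ] A), (∀ g h a, α (g * h) a = α g (α h a)) →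
    ∀ (β : G → FA A ω ≃⋆ₐ[ℂ] FA A ω), IsInduced A ω α β →
    ∀ ψ : D →⋆ₐ[ℂ] FA A ω, (∀ g d, β g (ψ d) = ψ d) →
      ∃ (C : Type) (_ : NonUnitalCStarAlgebra C) (ιA : A →⋆ₙₐ[ℂ] C) (ιD : D →⋆ₐ[ℂ] 𝓜(ℂ, C))
        (γ : G → C ≃⋆ₐ[ℂ] C), IsTensorGen ιA ιD ∧ IsExtension α ιA ιD γ

end

end Vale.Agent.P095.All
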