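import Vale.Agent.P095.All.FA.Strict
import Vale.Agent.P095.All.NonUnital

/-!
# P095: equivariant approximate intertwining by unitary multipliers
-/

namespace Vale.Agent.P095.All

open Filter Topology TopologicalSpace
open scoped MultiplierAlgebra

noncomputable section

variable {A C : Type} [NonUnitalCStarAlgebra A] [NonUnitalCStarAlgebra C]

theorem norm_coe_sub (x y : C) : ‖x - y‖ = ‖(x : 𝓜(ℂ, C)) - (y : 𝓜(ℂ, C))‖ := by
  rw [← coe_sub', norm_coe]

theorem conjC_mul (u v : unitary 𝓜(ℂ, C)) (c : C) : conjC (u * v) c = conjC u (conjC v c) :=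
  coe_injective (by
    show ((conjC (u * v) c : C) : 𝓜(ℂ, C)) = ((conjC u (conjC v c) : C) : 𝓜(ℂ, C))
    rw [coe_conjC, coe_conjC, coe_conjC, Submonoid.coe_mul, star_mul]
    simp only [mul_assoc])

theorem conjC_one (c : C) : conjC 1 c = c := coe_injective (by
  show ((conjC 1 c : C) : 𝓜(ℂ, C)) = (c : 𝓜(ℂ, C))
  rw [coe_conjC]
  simp)

theorem conjC_sub (u : unitary 𝓜(ℂ, C)) (x y : C) : conjC u (x - y) = conjC u x - conjC u y :=
  map_sub (conjCHom u) x y

theorem intertwineM {G : Type} [Group G] [Countable G] [SeparableSpace A] [SeparableSpace C]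
    (α : G → A ≃⋆ₐ[ℂ] A) (γ : G → C ≃⋆ₐ[ℂ] C) (hγ : ∀ g h c, γ (g * h) c = γ g (γ h c))
    (φ : A →⋆ₙₐ[ℂ] C) (hφ : Function.Injective φ) (hequiv : ∀ g a, γ g (φ a) = φ (α g a))
    (H : ∀ (T : Finset G) (P : Finset A) (Q : Finset C) (ε : ℝ), 0 < ε →
      ∃ z : unitary 𝓜(ℂ, C),
        (∀ a ∈ P, ‖(z : 𝓜(ℂ, C)) * (φ a : 𝓜(ℂ, C)) - (φ a : 𝓜(ℂ, C)) * z‖ ≤ ε) ∧
        (∀ g ∈ T, ∀ c ∈ Q,
          ‖(multMap (γ g) (star (z : 𝓜(ℂ, C))) - star (z : 𝓜(ℂ, C))) * (c : 𝓜(ℂ, C))‖ ≤ ε) ∧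
        ∀ c ∈ Q, ∃ a, ‖conjC (star z) c - φ a‖ ≤ ε) :
    CocycleConjugate α γ := by
  classical
  obtain ⟨e, he⟩ := exists_surjective_nat G
  have hiso : ∀ x, ‖φ x‖ = ‖x‖ := fun x => NonUnitalStarAlgHom.norm_map φ hφ x
  set a : ℕ → A := denseSeq A
  set c : ℕ → C := denseSeq C
  let ε : ℕ → ℝ := fun n => (1 / 2) ^ n
  have hε : ∀ n, 0 < ε n := fun n => by positivity
  have step : ∀ (n : ℕ) (st : unitary 𝓜(ℂ, C) × Finset A),
      ∃ (z : unitary 𝓜(ℂ, C)) (b : ℕ → A),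
      (∀ i ≤ n, ‖conjC z (φ (a i)) - φ (a i)‖ ≤ ε n) ∧
      (∀ x ∈ st.2, ‖conjC z (φ x) - φ x‖ ≤ ε n) ∧
      (∀ i ≤ n, ∀ j ≤ n,
        ‖(z * ⟨multMap (γ (e i)) (star (z : 𝓜(ℂ, C))), Unitary.map_mem _ (Unitary.star_mem z.2)⟩ :
            unitary 𝓜(ℂ, C)).1.fst ((multMap (γ (e i)) (star (st.1 : 𝓜(ℂ, C)))).fst (c j))
            - (multMap (γ (e i)) (star (st.1 : 𝓜(ℂ, C)))).fst (c j)‖ ≤ ε n ∧
        ‖(z * ⟨multMap (γ (e i)) (star (z : 𝓜(ℂ, C))), Unitary.map_mem _ (Unitary.star_mem z.2)⟩ :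
            unitary 𝓜(ℂ, C)).1.snd ((st.1 : 𝓜(ℂ, C)).snd (c j))
            - (st.1 : 𝓜(ℂ, C)).snd (c j)‖ ≤ ε n) ∧
      ∀ j ≤ n, ‖conjC (st.1 * z) (φ (b j)) - c j‖ ≤ ε n := by
    intro n st
    let R := Finset.range (n + 1)
    obtain ⟨z, hz0, hz1, hz2⟩ := H (R.image e) (R.image a ∪ st.2)
      ((R.image fun j => conjC (star st.1) (c j)) ∪
        ((R ×ˢ R).image fun p => (multMap (γ (e p.1)) (star (st.1 : 𝓜(ℂ, C)))).fst (c p.2)) ∪
        (R.image fun j => star ((st.1 : 𝓜(ℂ, C)).snd (c j)))) (ε n) (hε n)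
    have hR : ∀ {i}, i ≤ n → i ∈ R := fun hi => Finset.mem_range.2 (by omega)
    have hcomm : ∀ x ∈ R.image a ∪ st.2, ‖conjC z (φ x) - φ x‖ ≤ ε n := fun x hx => by
      refine le_trans (le_of_eq ?_) (hz0 x hx)
      rw [norm_coe_sub, coe_conjC, ← CStarRing.norm_mul_coe_unitary _ z, sub_mul, mul_assoc _ _ (z : 𝓜(ℂ, C)),
        Unitary.coe_star_mul_self, mul_one]
    have hzs : (z : 𝓜(ℂ, C)) * star (z : 𝓜(ℂ, C)) = 1 := Unitary.coe_mul_star_self z
    have hb : ∀ j, ∃ b : A, j ≤ n → ‖conjC (st.1 * z) (φ b) - c j‖ ≤ ε n := by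
      intro j
      by_cases hj : j ≤ n
      · obtain ⟨b, hb⟩ := hz2 _ (Finset.mem_union_left _ (Finset.mem_union_left _
          (Finset.mem_image_of_mem _ (hR hj))))
        refine ⟨b, fun _ => ?_⟩
        rw [norm_sub_rev]
        refine le_trans (le_of_eq ?_) hb
        rw [← norm_conjC (st.1 * z) (conjC (star z) (conjC (star st.1) (c j)) - φ b), conjC_sub,
          ← conjC_mul, ← conjC_mul]
        congr 3
        rw [mul_assoc st.1 z, Unitary.mul_star_self, mul_one, Unitary.mul_star_self,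
          conjC_one]
      · exact ⟨0, fun h => absurd h hj⟩
    choose b hb using hb
    refine ⟨z, b, fun i hi => hcomm _ (Finset.mem_union_left _ (Finset.mem_image_of_mem _ (hR hi))),
      fun x hx => hcomm _ (Finset.mem_union_right _ hx), fun i hi j hj => ⟨?_, ?_⟩, hb⟩
    · have h := hz1 _ (Finset.mem_image_of_mem e (hR hi)) _ (Finset.mem_union_left _
        (Finset.mem_union_right _ (Finset.mem_image_of_mem _
          (Finset.mk_mem_product (hR hi) (hR hj)))))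
      refine le_trans (le_of_eq ?_) h
      rw [norm_coe_sub, ← mul_coe_eq]
      set M := multMap (γ (e i)) (star (z : 𝓜(ℂ, C)))
      set X := (((multMap (γ (e i)) (star (st.1 : 𝓜(ℂ, C)))).fst (c j) : C) : 𝓜(ℂ, C))
      show ‖(z : 𝓜(ℂ, C)) * M * X - X‖ = ‖(M - star (z : 𝓜(ℂ, C))) * X‖
      rw [← CStarRing.norm_coe_unitary_mul z ((M - star (z : 𝓜(ℂ, C))) * X), sub_mul, mul_sub,
        ← mul_assoc, ← mul_assoc, hzs, one_mul]
    · have h := hz1 _ (Finset.mem_image_of_mem e (hR hi)) _ (Finset.mem_union_right _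
        (Finset.mem_image_of_mem _ (hR hj)))
      refine le_trans (le_of_eq ?_) h
      rw [norm_coe_sub, ← coe_mul_eq, coe_star']
      set M := multMap (γ (e i)) (star (z : 𝓜(ℂ, C))) with hM
      set Y := (((st.1 : 𝓜(ℂ, C)).snd (c j) : C) : 𝓜(ℂ, C))
      have hMu : M ∈ unitary 𝓜(ℂ, C) := Unitary.map_mem _ (Unitary.star_mem z.2)
      show ‖Y * ((z : 𝓜(ℂ, C)) * M) - Y‖ = ‖(M - star (z : 𝓜(ℂ, C))) * star Y‖
      rw [← norm_star ((M - star (z : 𝓜(ℂ, C))) * star Y), star_mul, star_star, star_sub, star_star]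
      conv_rhs => rw [← CStarRing.norm_mul_mem_unitary (Y * (star M - (z : 𝓜(ℂ, C)))) hMu]
      rw [← norm_neg, mul_assoc Y, sub_mul, Unitary.star_mul_self_of_mem hMu, mul_sub, mul_one,
        neg_sub]
  choose Z B hZa hZS hZG hB using step
  let st : ℕ → unitary 𝓜(ℂ, C) × Finset A := fun n => n.rec (1, ∅) fun k s =>
    (s.1 * Z k s, s.2 ∪ (Finset.range (k + 1)).image (B k s))
  have hst : ∀ n, st (n + 1) = ((st n).1 * Z n (st n),
      (st n).2 ∪ (Finset.range (n + 1)).image (B n (st n))) := fun n => rfl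
  let Ψ : ℕ → A →⋆ₙₐ[ℂ] C := fun n => (conjCHom (st n).1).comp φ
  have hΨn : ∀ n x, ‖Ψ n x‖ = ‖x‖ := fun n x => (norm_conjC _ _).trans (hiso x)
  have hdiff : ∀ n x, ‖Ψ (n + 1) x - Ψ n x‖ = ‖conjC (Z n (st n)) (φ x) - φ x‖ := by
    intro n x
    show ‖conjC (st (n + 1)).1 (φ x) - conjC (st n).1 (φ x)‖ = _
    rw [hst, conjC_mul, ← conjC_sub, norm_conjC]
  have hmono : ∀ n m, n ≤ m → (st n).2 ⊆ (st m).2 := fun n m h => by
    induction h with
    | refl => exact subset_rfl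
    | step _ ih => exact ih.trans (by rw [hst]; exact Finset.subset_union_left)
  have hgeo : ∀ (k : ℕ) (x : A), (∀ m, k ≤ m → ‖conjC (Z m (st m)) (φ x) - φ x‖ ≤ ε m) →
      ∀ m, k ≤ m → ‖Ψ m x - Ψ k x‖ ≤ 2 * ε k - 2 * ε m := by
    intro k x hx m hm
    induction m, hm using Nat.le_induction with
    | base => simp
    | succ m hm ih =>
      refine (norm_sub_le_norm_sub_add_norm_sub _ (Ψ m x) _).trans ?_
      have := (hdiff m x).trans_le (hx m hm)
      have e : ε (m + 1) = ε m / 2 := by simp only [ε, pow_succ]; ring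
      linarith
  have hεlim : Tendsto ε atTop (𝓝 0) :=
    tendsto_pow_atTop_nhds_zero_of_lt_one (by norm_num) (by norm_num)
  -- a Lipschitz family that is Cauchy on a dense set is Cauchy
  have hext : ∀ {X : Type} [NormedAddCommGroup X] (d : ℕ → X) (_ : DenseRange d) (f : ℕ → X → C),
      (∀ n x y, ‖f n x - f n y‖ ≤ ‖x - y‖) → (∀ i, CauchySeq fun n => f n (d i)) →
      ∀ x, CauchySeq fun n => f n x := by
    intro X _ d hd f hL hC x
    refine Metric.cauchySeq_iff'.2 fun δ hδ => ?_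
    obtain ⟨i, hi⟩ := hd.exists_dist_lt x (show 0 < δ / 4 by positivity)
    obtain ⟨N, hN⟩ := Metric.cauchySeq_iff'.1 (hC i) (δ / 4) (by positivity)
    refine ⟨N, fun m hm => ?_⟩
    have h1 := (hL m x (d i)).trans_lt (by rwa [dist_eq_norm] at hi)
    have h2 := (hL N x (d i)).trans_lt (by rwa [dist_eq_norm] at hi)
    have h3 := hN m hm
    rw [dist_eq_norm] at h3 ⊢
    rw [norm_sub_rev] at h2
    calc ‖f m x - f N x‖ = ‖(f m x - f m (d i)) + (f m (d i) - f N (d i)) + (f N (d i) - f N x)‖ := by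
          congr 1; abel
      _ ≤ ‖f m x - f m (d i)‖ + ‖f m (d i) - f N (d i)‖ + ‖f N (d i) - f N x‖ := norm_add₃_le
      _ < δ := by linarith
  have hcauchy : ∀ x, CauchySeq fun n => Ψ n x := by
    refine hext a (denseRange_denseSeq A) (fun n x => Ψ n x)
      (fun n x y => le_of_eq (by rw [← map_sub, hΨn])) fun i => ?_
    refine (cauchySeq_shift i).1 (cauchySeq_of_le_geometric (1 / 2 : ℝ) (ε i) (by norm_num) fun n => ?_)
    rw [dist_comm, dist_eq_norm, add_right_comm, hdiff]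
    refine (hZa _ _ i (Nat.le_add_left i n)).trans (le_of_eq ?_)
    simp only [ε, pow_add]
    ring
  choose ψ hψ using fun x => cauchySeq_tendsto_of_complete (hcauchy x)
  let Ψlim : A →⋆ₙₐ[ℂ] C :=
    { toFun := ψ
      map_smul' := fun r x => tendsto_nhds_unique (hψ _) (by simpa using (hψ x).const_smul r)
      map_zero' := tendsto_nhds_unique (hψ 0) (by simp)
      map_mul' := fun x y => tendsto_nhds_unique (hψ _) (by simpa using (hψ x).mul (hψ y))
      map_add' := fun x y => tendsto_nhds_unique (hψ _) (by simpa using (hψ x).add (hψ y))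
      map_star' := fun x => tendsto_nhds_unique (hψ _)
        (((continuous_star.tendsto _).comp (hψ x)).congr fun n => (map_star (Ψ n) x).symm) }
  have hnorm : ∀ x, ‖Ψlim x‖ = ‖x‖ := fun x =>
    tendsto_nhds_unique (hψ x).norm (by simp [hΨn])
  have hisom : Isometry Ψlim := AddMonoidHomClass.isometry_of_norm _ hnorm
  have hdense : DenseRange Ψlim := by
    intro y
    rw [Metric.mem_closure_iff]
    intro δ hδ
    obtain ⟨j, hj⟩ := (denseRange_denseSeq C).exists_dist_lt y (show 0 < δ / 2 by positivity)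
    obtain ⟨n, hjn, hn⟩ := ((eventually_ge_atTop j).and
      (hεlim.eventually (gt_mem_nhds (show 0 < δ / 6 by positivity)))).exists
    set b := B n (st n) j
    refine ⟨Ψlim b, ⟨b, rfl⟩, ?_⟩
    have hb : b ∈ (st (n + 1)).2 := by
      rw [hst]
      exact Finset.mem_union_right _ (Finset.mem_image_of_mem _ (Finset.mem_range.2 (by omega)))
    have h1 : ‖Ψlim b - Ψ (n + 1) b‖ ≤ 2 * ε (n + 1) :=
      le_of_tendsto ((hψ b).sub_const _).norm (eventually_atTop.2 ⟨n + 1, fun m hm => by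
        have := hgeo (n + 1) b (fun m' hm' => hZS m' _ b (hmono _ _ hm' hb)) m hm
        linarith [hε m]⟩)
    have h2 : ‖Ψ (n + 1) b - c j‖ ≤ ε n := by
      show ‖conjC (st (n + 1)).1 (φ b) - c j‖ ≤ ε n
      rw [hst]
      exact hB n (st n) j hjn
    have e : ε (n + 1) = ε n / 2 := by simp only [ε, pow_succ]; ring
    have h3 := norm_sub_le_norm_sub_add_norm_sub (Ψlim b) (Ψ (n + 1) b) (c j)
    rw [dist_eq_norm] at hj ⊢
    have h4 := norm_sub_le_norm_sub_add_norm_sub y (c j) (Ψlim b)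
    rw [norm_sub_rev (c j) (Ψlim b)] at h4
    linarith [hε n]
  have hsurj : Function.Surjective Ψlim := fun y => by
    have := hisom.isClosedEmbedding.isClosed_range.closure_eq ▸ hdense y
    exact this
  -- the cocycle
  let V : ℕ → unitary 𝓜(ℂ, C) := fun n => (st n).1
  let W : ℕ → G → unitary 𝓜(ℂ, C) := fun n g =>
    V n * ⟨multMap (γ g) (star (V n : 𝓜(ℂ, C))), Unitary.map_mem _ (Unitary.star_mem (V n).2)⟩
  let zz : ℕ → G → unitary 𝓜(ℂ, C) := fun n g =>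
    Z n (st n) * ⟨multMap (γ g) (star (Z n (st n) : 𝓜(ℂ, C))),
      Unitary.map_mem _ (Unitary.star_mem (Z n (st n)).2)⟩
  have hW : ∀ n g, (W (n + 1) g : 𝓜(ℂ, C)) = (V n : 𝓜(ℂ, C)) * (zz n g : 𝓜(ℂ, C)) *
      multMap (γ g) (star (V n : 𝓜(ℂ, C))) := by
    intro n g
    show ((st (n + 1)).1 : 𝓜(ℂ, C)) * multMap (γ g) (star ((st (n + 1)).1 : 𝓜(ℂ, C))) = _
    rw [hst, Submonoid.coe_mul, star_mul, map_mul]
    simp only [V, zz, Submonoid.coe_mul, mul_assoc]
  have hWn : ∀ n g, ‖(W n g : 𝓜(ℂ, C))‖ ≤ 1 := fun n g => norm_unitary_le _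
  have hWc : ∀ g x, (CauchySeq fun n => (W n g : 𝓜(ℂ, C)).fst x) ∧
      CauchySeq fun n => (W n g : 𝓜(ℂ, C)).snd x := by
    intro g
    obtain ⟨i, rfl⟩ := he g
    have hfst : ∀ n x, ‖(W n (e i) : 𝓜(ℂ, C)).fst x‖ ≤ ‖x‖ := fun n x =>
      (norm_fst_le _ x).trans (mul_le_of_le_one_left (norm_nonneg x) (hWn n _))
    have hsnd : ∀ n x, ‖(W n (e i) : 𝓜(ℂ, C)).snd x‖ ≤ ‖x‖ := fun n x =>
      (norm_snd_le _ x).trans (mul_le_of_le_one_left (norm_nonneg x) (hWn n _))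
    refine fun x => ⟨hext c (denseRange_denseSeq C) (fun n x => (W n (e i) : 𝓜(ℂ, C)).fst x)
        (fun n x y => by rw [← map_sub]; exact hfst n _) (fun j => ?_) x,
      hext c (denseRange_denseSeq C) (fun n x => (W n (e i) : 𝓜(ℂ, C)).snd x)
        (fun n x y => by rw [← map_sub]; exact hsnd n _) (fun j => ?_) x⟩
    · refine (cauchySeq_shift (i + j)).1
        (cauchySeq_of_le_geometric (1 / 2 : ℝ) (ε (i + j)) (by norm_num) fun n => ?_)
      set m := n + (i + j)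
      rw [dist_comm, dist_eq_norm, show n + 1 + (i + j) = m + 1 by omega, hW]
      set q := (multMap (γ (e i)) (star (V m : 𝓜(ℂ, C)))).fst (c j)
      show ‖(V m : 𝓜(ℂ, C)).fst ((zz m (e i) : 𝓜(ℂ, C)).fst q) - (V m : 𝓜(ℂ, C)).fst q‖ ≤ _
      rw [← map_sub]
      refine ((norm_fst_le _ _).trans (mul_le_of_le_one_left (norm_nonneg _)
        (norm_unitary_le _))).trans ((hZG m _ i (by omega) j (by omega)).1.trans (le_of_eq ?_))
      simp only [ε, m, pow_add]
      ring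
    · refine (cauchySeq_shift (i + j)).1
        (cauchySeq_of_le_geometric (1 / 2 : ℝ) (ε (i + j)) (by norm_num) fun n => ?_)
      set m := n + (i + j)
      rw [dist_comm, dist_eq_norm, show n + 1 + (i + j) = m + 1 by omega, hW]
      set q := (V m : 𝓜(ℂ, C)).snd (c j)
      show ‖(multMap (γ (e i)) (star (V m : 𝓜(ℂ, C)))).snd ((zz m (e i) : 𝓜(ℂ, C)).snd q)
        - (multMap (γ (e i)) (star (V m : 𝓜(ℂ, C)))).snd q‖ ≤ _
      rw [← map_sub]
      refine ((norm_snd_le _ _).trans (mul_le_of_le_one_left (norm_nonneg _) (norm_unitary_le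
        ⟨_, Unitary.map_mem _ (Unitary.star_mem (V m).2)⟩))).trans
        ((hZG m _ i (by omega) j (by omega)).2.trans (le_of_eq ?_))
      simp only [ε, m, pow_add]
      ring
  choose U hU using fun g => exists_strictTo (fun n => hWn n g) (fun x => (hWc g x).1)
    fun x => (hWc g x).2
  have hWs : ∀ g n, ‖star (W n g : 𝓜(ℂ, C))‖ ≤ 1 := fun g n => (norm_star _).trans_le (hWn n g)
  have hWm : ∀ g h n, ‖multMap (γ g) (W n h : 𝓜(ℂ, C))‖ ≤ 1 := fun g h n =>
    norm_unitary_le ⟨_, Unitary.map_mem (multMap (γ g)) (W n h).2⟩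
  have hγsymm : ∀ g x, (γ g).symm x = γ g⁻¹ x := fun g x => EquivLike.injective (γ g) (by
    have h1 : ∀ y, γ 1 y = y := fun y => EquivLike.injective (γ 1) (by rw [← hγ, mul_one])
    rw [StarAlgEquiv.apply_symm_apply, ← hγ, mul_inv_cancel, h1])
  refine ⟨StarAlgEquiv.ofBijective Ψlim ⟨hisom.injective, hsurj⟩, U, fun g => ⟨?_, ?_⟩,
    fun g h x => ?_, fun g x => ?_⟩
  · refine StrictTo.unique ((hU g).star.mul (hWs g) (fun n => hWn n g) (hU g)) ?_
    rw [show (fun n => star (W n g : 𝓜(ℂ, C)) * (W n g : 𝓜(ℂ, C))) = fun _ => 1 from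
      funext fun n => Unitary.star_mul_self_of_mem (W n g).2]
    exact StrictTo.const 1
  · refine StrictTo.unique ((hU g).mul (fun n => hWn n g) (hWs g) (hU g).star) ?_
    rw [show (fun n => (W n g : 𝓜(ℂ, C)) * star (W n g : 𝓜(ℂ, C))) = fun _ => 1 from
      funext fun n => Unitary.mul_star_self_of_mem (W n g).2]
    exact StrictTo.const 1
  · have hgh : StrictTo (fun n => (W n (g * h) : 𝓜(ℂ, C))) (U g * multMap (γ g) (U h)) := by
      convert (hU g).mul (fun n => hWn n g) (hWm g h) ((hU h).map (γ g)) using 1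
      funext n
      show (V n : 𝓜(ℂ, C)) * multMap (γ (g * h)) (star (V n : 𝓜(ℂ, C)))
        = (V n : 𝓜(ℂ, C)) * multMap (γ g) (star (V n : 𝓜(ℂ, C))) *
          multMap (γ g) ((V n : 𝓜(ℂ, C)) * multMap (γ h) (star (V n : 𝓜(ℂ, C))))
      rw [mul_assoc, ← map_mul, ← mul_assoc (star (V n : 𝓜(ℂ, C))), Unitary.coe_star_mul_self,
        one_mul]
      congr 1
      refine multiplier_ext' (fun y => ?_) fun y => ?_ <;>
        simp [multMap_fst, multMap_snd, hγ, hγsymm, mul_inv_rev]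
    rw [StrictTo.unique (hU (g * h)) hgh]
    show (U g).fst ((multMap (γ g) (U h)).fst x) = _
    rw [multMap_fst, hγsymm]
  · show ((ψ (α g x) : C) : 𝓜(ℂ, C)) = U g * ((γ g (ψ x) : C) : 𝓜(ℂ, C)) * star (U g)
    rw [mul_assoc, coe_mul_eq, mul_coe_eq]
    refine congrArg (DoubleCentralizer.coe ℂ) (tendsto_nhds_unique (hψ (α g x)) ?_)
    refine ((hU g).fst_tendsto (fun n => hWn n g) ((hU g).star.snd_tendsto (hWs g)
      (((equivCLM (γ g)).continuous.tendsto _).comp (hψ x)))).congr fun n => coe_injective ?_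
    show (((W n g : 𝓜(ℂ, C)).fst ((star (W n g : 𝓜(ℂ, C))).snd (γ g (Ψ n x))) : C) : 𝓜(ℂ, C))
      = ((conjC (V n) (φ (α g x)) : C) : 𝓜(ℂ, C))
    rw [← mul_coe_eq, ← coe_mul_eq, coe_conjC, ← multMap_coe,
      show ((Ψ n x : C) : 𝓜(ℂ, C)) = (V n : 𝓜(ℂ, C)) * (φ x : 𝓜(ℂ, C)) * star (V n : 𝓜(ℂ, C))
        from coe_conjC _ _, ← hequiv, ← multMap_coe]
    set M := multMap (γ g)
    set Vn := (V n : 𝓜(ℂ, C))
    have hV1 : star Vn * Vn = 1 := Unitary.coe_star_mul_self (V n)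
    show Vn * M (star Vn) * (M (Vn * (φ x : 𝓜(ℂ, C)) * star Vn) * star (Vn * M (star Vn))) = _
    have h1 : M (star Vn) * M Vn = 1 := by rw [← map_mul, hV1, map_one]
    rw [star_mul, ← map_star, star_star, map_mul, map_mul]
    calc Vn * M (star Vn) * (M Vn * M (φ x : 𝓜(ℂ, C)) * M (star Vn) * (M Vn * star Vn))
        = Vn * (M (star Vn) * M Vn) * M (φ x : 𝓜(ℂ, C)) * (M (star Vn) * M Vn) * star Vn := by
          noncomm_ring
      _ = Vn * M (φ x : 𝓜(ℂ, C)) * star Vn := by rw [h1, mul_one, mul_one]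

end

end Vale.Agent.P095.All
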