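import Vale.Agent.P095.All.FA.AbsorbSetup
import Vale.Agent.P095.All.FA.Intertwine
import Vale.Agent.P095.All.FA.Targets

/-!
# P095: a fixed map into `F_ω(A)` gives cocycle conjugacy
-/

namespace Vale.Agent.P095.All

open Filter Topology TopologicalSpace BoundedContinuousFunction Vale.Agent.P101.KR
  Vale.Agent.P101.Bridge Vale.Agent.P095.Equiv
open scoped MultiplierAlgebra

noncomputable section

variable {A C D : Type} [NonUnitalCStarAlgebra A] [NonUnitalCStarAlgebra C] [CStarAlgebra D]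

theorem continuous_fst_apply₂ : Continuous fun p : 𝓜(ℂ, C) × C => p.1.fst p.2 := by
  have h : Continuous fun M : 𝓜(ℂ, C) => M.fst :=
    AddMonoidHomClass.continuous_of_bound
      (AddMonoidHom.mk' (fun M : 𝓜(ℂ, C) => M.fst) fun M N => by simp) 1 fun M => by
      simp
  exact isBoundedBilinearMap_apply.continuous.comp ((h.comp continuous_fst).prodMk continuous_snd)

theorem IsTensorGen.separable [SeparableSpace A] [SeparableSpace D] {ιA : A →⋆ₙₐ[ℂ] C}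
    {ιD : D →⋆ₐ[ℂ] 𝓜(ℂ, C)} (hT : IsTensorGen ιA ιD) : SeparableSpace C := by
  have hc : Continuous fun p : A × D => (ιD p.2).fst (ιA p.1) :=
    continuous_fst_apply₂.comp (((continuous_nonUnitalHom ιD.toNonUnitalStarAlgHom).comp
      continuous_snd).prodMk ((continuous_nonUnitalHom ιA).comp continuous_fst))
  refine isSeparable_univ_iff.1 ?_
  have h := ((isSeparable_range hc).span (R := ℂ)).closure
  rwa [hT.2.2.closure_eq] at h

theorem emb_fst (ω' : Ultrafilter ℕ) (ιA : A →⋆ₙₐ[ℂ] C) (ιD : D →⋆ₐ[ℂ] 𝓜(ℂ, C)) (d : D) (a : A) :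
    emb ω' (((ιD d).fst (ιA a) : C) : 𝓜(ℂ, C)) = emb ω' (ιD d) * CSide.jA ιA ω' a := by
  rw [← mul_coe_eq, map_mul, CSide.jA_apply]

/-- The multipliers in the ultrapower, as a linear map. -/
def embC (ω' : Ultrafilter ℕ) : C →⋆ₙₐ[ℂ] AOmega 𝓜(ℂ, C) ω' :=
  (emb (A := 𝓜(ℂ, C)) ω').toNonUnitalStarAlgHom.comp (DoubleCentralizer.coeHom (𝕜 := ℂ))

theorem embC_apply (ω' : Ultrafilter ℕ) (c : C) : embC ω' c = emb ω' (c : 𝓜(ℂ, C)) := rfl

/-- Killing the products with `A` means killing `C`, for what commutes with the two. -/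
theorem mul_embC_eq_zero {ιA : A →⋆ₙₐ[ℂ] C} {ιD : D →⋆ₐ[ℂ] 𝓜(ℂ, C)} (hT : IsTensorGen ιA ιD)
    {ω' : Ultrafilter ℕ} {v : AOmega 𝓜(ℂ, C) ω'} (hv : ∀ a, v * CSide.jA ιA ω' a = 0) (c : C) :
    v * embC ω' c = 0 := by
  have hcl : IsClosed {c : C | v * embC ω' c = 0} :=
    isClosed_eq (continuous_const.fun_mul (continuous_nonUnitalHom (embC ω'))) continuous_const
  refine closure_minimal ?_ hcl (hT.2.2 c)
  intro x hx
  induction hx using Submodule.span_induction with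
  | mem x hx =>
    obtain ⟨⟨a, d⟩, rfl⟩ := hx
    show v * embC ω' ((ιD d).fst (ιA a)) = 0
    have hc : emb ω' (ιD d) * CSide.jA ιA ω' a = CSide.jA ιA ω' a * emb ω' (ιD d) := by
      rw [CSide.jA_apply, ← map_mul, ← map_mul, hT.2.1]
    rw [embC_apply, emb_fst, hc, ← mul_assoc, hv, zero_mul]
  | zero => simp
  | add x y _ _ hx hy => simp only [Set.mem_ofPred_eq, map_add, mul_add] at *; rw [hx, hy, add_zero]
  | smul s x _ hx =>
    simp only [Set.mem_ofPred_eq, map_smul, mul_smul_comm] at *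
    rw [hx, smul_zero]

/-- A finite combination of products with conjugates near sequences in `A` has the same property. -/
theorem exists_near_seq {ιA : A →⋆ₙₐ[ℂ] C} {ιD : D →⋆ₐ[ℂ] 𝓜(ℂ, C)} {ω' : Ultrafilter ℕ}
    (W : unitary (AOmega 𝓜(ℂ, C) ω')) {δ : ℝ} {m : ℕ} (r : Fin m → ℂ) (p : Fin m → A × D)
    (hW : ∀ k, ∃ Y : ℕ →ᵇ 𝓜(ℂ, C), (∀ n, ∃ b, Y n = ((ιA b : C) : 𝓜(ℂ, C))) ∧
      ‖star (W : AOmega 𝓜(ℂ, C) ω') * (emb ω' (ιD (p k).2) * CSide.jA ιA ω' (p k).1) *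
        (W : AOmega 𝓜(ℂ, C) ω') - cls ω' Y‖ ≤ δ * ‖(p k).1‖) (c : C) {ε : ℝ}
    (hc : ‖c - ∑ k, r k • (ιD (p k).2).fst (ιA (p k).1)‖ ≤ ε) :
    ∃ Y : ℕ →ᵇ 𝓜(ℂ, C), (∀ n, ∃ b, Y n = ((ιA b : C) : 𝓜(ℂ, C))) ∧
      ‖star (W : AOmega 𝓜(ℂ, C) ω') * embC ω' c * (W : AOmega 𝓜(ℂ, C) ω') - cls ω' Y‖
        ≤ ε + δ * ∑ k, ‖r k‖ * ‖(p k).1‖ := by
  choose Y hYA hY using hW
  choose b hb using hYA
  refine ⟨∑ k, r k • Y k, fun n => ⟨∑ k, r k • b k n, ?_⟩, ?_⟩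
  · show _ = DoubleCentralizer.coeHom (𝕜 := ℂ) (ιA (∑ k, r k • b k n))
    simp only [map_sum, map_smul, BoundedContinuousFunction.coe_sum, Finset.sum_apply,
      BoundedContinuousFunction.coe_smul]
    exact Finset.sum_congr rfl fun k _ => congrArg (r k • ·) (hb k n)
  set w : AOmega 𝓜(ℂ, C) ω' := (W : AOmega 𝓜(ℂ, C) ω')
  set s : C := ∑ k, r k • (ιD (p k).2).fst (ιA (p k).1)
  have hs : embC ω' s = ∑ k, r k • (emb ω' (ιD (p k).2) * CSide.jA ιA ω' (p k).1) := by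
    simp only [s, map_sum, map_smul, embC_apply, emb_fst]
  have h1 : ‖star w * embC ω' s * w - cls ω' (∑ k, r k • Y k)‖
      ≤ δ * ∑ k, ‖r k‖ * ‖(p k).1‖ := by
    rw [hs, map_sum, Finset.mul_sum Finset.univ, Finset.sum_mul, ← Finset.sum_sub_distrib,
      Finset.mul_sum]
    refine (norm_sum_le _ _).trans (Finset.sum_le_sum fun k _ => ?_)
    rw [map_smul, mul_smul_comm, smul_mul_assoc, ← smul_sub, norm_smul]
    calc ‖r k‖ * _ ≤ ‖r k‖ * (δ * ‖(p k).1‖) :=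
          mul_le_mul_of_nonneg_left (hY k) (norm_nonneg _)
      _ = _ := by ring
  have h2 : ‖star w * embC ω' c * w - star w * embC ω' s * w‖ ≤ ε := by
    rw [← sub_mul, ← mul_sub, CStarRing.norm_mul_mem_unitary _ W.2,
      CStarRing.norm_mem_unitary_mul _ (Unitary.star_mem W.2), ← map_sub]
    exact (NonUnitalStarAlgHom.norm_apply_le (embC ω') _).trans hc
  have := norm_sub_le_norm_sub_add_norm_sub (star w * embC ω' c * w)
    (star w * embC ω' s * w) (cls ω' (∑ k, r k • Y k))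
  linarith

/-- A unitary of the ultrapower gives unitaries with the properties wanted. -/
theorem exists_unitary_of_seq {G : Type} {γ : G → C ≃⋆ₐ[ℂ] C} {ιA : A →⋆ₙₐ[ℂ] C}
    {ω' : Ultrafilter ℕ} (W : unitary (AOmega 𝓜(ℂ, C) ω')) (T : Finset G) (P : Finset A)
    (Q : Finset C) {ε : ℝ} (hε : 0 < ε)
    (hc : ∀ a, Commute (W : AOmega 𝓜(ℂ, C) ω') (CSide.jA ιA ω' a))
    (hfix : ∀ g c, (omegaMap ω' (multMap (γ g)) (star (W : AOmega 𝓜(ℂ, C) ω')) -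
      star (W : AOmega 𝓜(ℂ, C) ω')) * embC ω' c = 0)
    (hnear : ∀ c ∈ Q, ∃ Y : ℕ →ᵇ 𝓜(ℂ, C), (∀ n, ∃ b, Y n = ((ιA b : C) : 𝓜(ℂ, C))) ∧
      ‖star (W : AOmega 𝓜(ℂ, C) ω') * embC ω' c * (W : AOmega 𝓜(ℂ, C) ω') - cls ω' Y‖ < ε) :
    ∃ z : unitary 𝓜(ℂ, C),
      (∀ a ∈ P, ‖(z : 𝓜(ℂ, C)) * (ιA a : 𝓜(ℂ, C)) - (ιA a : 𝓜(ℂ, C)) * z‖ ≤ ε) ∧
      (∀ g ∈ T, ∀ c ∈ Q,
        ‖(multMap (γ g) (star (z : 𝓜(ℂ, C))) - star (z : 𝓜(ℂ, C))) * (c : 𝓜(ℂ, C))‖ ≤ ε) ∧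
      ∀ c ∈ Q, ∃ a, ‖conjC (star z) c - ιA a‖ ≤ ε := by
  classical
  choose Y hYA hY using hnear
  obtain ⟨U, hU, hUw⟩ := unitary_lift_of 𝓜(ℂ, C) ω' W
  have hsmall : ∀ X : ℕ →ᵇ 𝓜(ℂ, C), ‖cls ω' X‖ < ε → ∀ᶠ n in (ω' : Filter ℕ), ‖X n‖ < ε :=
    fun X hX => (tendsto_omegaNorm ω' X).eventually (gt_mem_nhds (by rwa [← norm_cls]))
  have h : ∀ c ∈ Q, ∀ᶠ n in (ω' : Filter ℕ),
      ∀ hc : c ∈ Q, ‖star (U n) * (c : 𝓜(ℂ, C)) * U n - Y c hc n‖ < ε := fun c hc => by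
    refine (hsmall (star U * const ℕ (c : 𝓜(ℂ, C)) * U - Y c hc) ?_).mono fun n hn _ => hn
    rw [map_sub, map_mul, map_mul, map_star, hUw]
    exact hY c hc
  have hev : ∀ᶠ n in (ω' : Filter ℕ),
      (∀ a ∈ P, ‖U n * (ιA a : 𝓜(ℂ, C)) - (ιA a : 𝓜(ℂ, C)) * U n‖ < ε) ∧
      (∀ g ∈ T, ∀ c ∈ Q, ‖(multMap (γ g) (star (U n)) - star (U n)) * (c : 𝓜(ℂ, C))‖ < ε) ∧
      ∀ c ∈ Q, ∀ hc : c ∈ Q, ‖star (U n) * (c : 𝓜(ℂ, C)) * U n - Y c hc n‖ < ε := by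
    refine ((Filter.eventually_all_finset _).2 fun a _ => ?_).and
      (((Filter.eventually_all_finset _).2 fun g _ =>
        (Filter.eventually_all_finset _).2 fun c _ => ?_).and ((Filter.eventually_all_finset Q).2 h))
    · refine hsmall (U * const ℕ (ιA a : 𝓜(ℂ, C)) - const ℕ (ιA a : 𝓜(ℂ, C)) * U) ?_
      rw [map_sub, map_mul, map_mul, hUw]
      show ‖(W : AOmega 𝓜(ℂ, C) ω') * CSide.jA ιA ω' a
        - CSide.jA ιA ω' a * (W : AOmega 𝓜(ℂ, C) ω')‖ < ε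
      rw [(hc a).eq, sub_self, norm_zero]
      exact hε
    · refine hsmall ((seqMap (multMap (γ g)) (star U) - star U) * const ℕ (c : 𝓜(ℂ, C))) ?_
      rw [map_mul, map_sub, ← omegaMap_cls, map_star, hUw]
      show ‖(omegaMap ω' (multMap (γ g)) (star (W : AOmega 𝓜(ℂ, C) ω'))
        - star (W : AOmega 𝓜(ℂ, C) ω')) * embC ω' c‖ < ε
      rw [hfix, norm_zero]
      exact hε
  obtain ⟨n, h0, h1, h2⟩ := hev.exists
  refine ⟨⟨U n, hU n⟩, fun a ha => (h0 a ha).le, fun g hg c hc => (h1 g hg c hc).le,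
    fun c hc => ?_⟩
  obtain ⟨b, hb⟩ := hYA c hc n
  refine ⟨b, ?_⟩
  have h := (h2 c hc hc).le
  rw [hb] at h
  rw [norm_coe_sub, coe_conjC, Unitary.coe_star, star_star]
  exact h

theorem absorbFA_of : AbsorbFATarget := by
  intro G _ _ A C D _ _ _ _ _ ω _hω hD α β hβ ψ hψ ιA ιD γ hT hext
  classical
  have := hT.separable
  refine intertwineM α γ hext.mul ιA hT.1 hext.onA fun T P Q ε hε => ?_
  have happ : ∀ c : C, ∃ (m : ℕ) (r : Fin m → ℂ) (p : Fin m → A × D),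
      ‖c - ∑ k, r k • (ιD (p k).2).fst (ιA (p k).1)‖ ≤ ε / 4 := by
    intro c
    obtain ⟨x, hx, hcx⟩ := Metric.mem_closure_iff.1 (hT.2.2 c) (ε / 4) (by positivity)
    obtain ⟨m, r, g, rfl⟩ := Submodule.mem_span_set'.1 hx
    choose p hp using fun k => (g k).2
    refine ⟨m, r, p, ?_⟩
    rw [dist_eq_norm] at hcx
    simpa only [hp] using hcx.le
  choose m r p hp using happ
  let K : C → ℝ := fun c => ∑ k, ‖r c k‖ * ‖(p c k).1‖
  have hK : ∀ c, 0 ≤ K c := fun c => Finset.sum_nonneg fun k _ => by positivity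
  have hden : 0 < 1 + ∑ c ∈ Q, K c := by
    have := Finset.sum_nonneg (s := Q) fun c _ => hK c
    linarith
  obtain ⟨W, hWM, hWQ⟩ := CSide.exists_conj hD hβ ψ hψ hT hext
    (Q.biUnion fun c => Finset.univ.image fun k => (p c k).2)
    (show 0 < ε / 4 / (1 + ∑ c ∈ Q, K c) by positivity)
  refine exists_unitary_of_seq W T P Q hε hWM.1 (fun g => mul_embC_eq_zero hT fun a => ?_)
    fun c hc => ?_
  · have h := ((star_mem hWM : star (W : AOmega 𝓜(ℂ, C) (Reindex.triple ω)) ∈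
      CSide.fixedMul ιA hext.onA (Reindex.triple ω))).2 g ((α g).symm a)
    rw [StarAlgEquiv.apply_symm_apply, map_mul, CSide.omegaMap_jA ιA hext.onA,
      StarAlgEquiv.apply_symm_apply] at h
    rw [sub_mul, h, sub_self]
  · obtain ⟨Y, hYA, hY⟩ := exists_near_seq W (r c) (p c) (fun k => hWQ (p c k).2
      (Finset.mem_biUnion.2 ⟨c, hc, Finset.mem_image_of_mem _ (Finset.mem_univ k)⟩) (p c k).1)
      c (hp c)
    refine ⟨Y, hYA, hY.trans_lt ?_⟩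
    have hkc : ε / 4 / (1 + ∑ c ∈ Q, K c) * K c ≤ ε / 4 := by
      rw [div_mul_eq_mul_div, div_le_iff₀ hden]
      have := Finset.single_le_sum (f := K) (fun c _ => hK c) hc
      exact mul_le_mul_of_nonneg_left (by linarith) (by positivity)
    simp only [K] at hkc
    linarith

end

end Vale.Agent.P095.All
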