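import Vale.Agent.P095.All.FA.Path
import Vale.Agent.P101.Bridge.Interfaces

/-!
# P095: the half flip by a product of exponentials

Among four commuting copies `α β γ δ`, a commutator of two half flips moves `α` to `β` and commutes
with `δ`, so it is joined to `1`.
-/

namespace Vale.Agent.P095.All.Flip

open Vale.Agent.P101.KR Vale.Agent.P101.Bridge

noncomputable section

variable {E : Type} [CStarAlgebra E]

theorem isClosed_centralizer (s : Set E) :
    IsClosed (StarSubalgebra.centralizer ℂ s : Set E) := by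
  have e : (StarSubalgebra.centralizer ℂ s : Set E) =
      ⋂ x ∈ s, {z | x * z = z * x} ∩ {z | star x * z = z * star x} := by
    ext z
    rw [SetLike.mem_coe, StarSubalgebra.mem_centralizer_iff ℂ]
    simp
  rw [e]
  exact isClosed_biInter fun x _ =>
    (isClosed_eq (continuous_const.fun_mul continuous_id) (continuous_id.fun_mul continuous_const)).inter
      (isClosed_eq (continuous_const.fun_mul continuous_id) (continuous_id.fun_mul continuous_const))

/-- A half flip commuting with given sets. -/
theorem exists_relative_flip {D : Type} [CStarAlgebra D] (hflip : HasHalfFlip D)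
    (α β : D →⋆ₐ[ℂ] E) (hαβ : ∀ x y, Commute (α x) (β y)) (s : Set E)
    (hα : ∀ x, α x ∈ StarSubalgebra.centralizer ℂ s)
    (hβ : ∀ x, β x ∈ StarSubalgebra.centralizer ℂ s) (P : Finset D) {ε : ℝ} (hε : 0 < ε) :
    ∃ u : unitary E, (∀ z ∈ s, Commute z (u : E)) ∧
      ∀ d ∈ P, ‖(u : E) * α d * star (u : E) - β d‖ ≤ ε := by
  set M := StarSubalgebra.centralizer ℂ s
  have : IsClosed (M : Set E) := isClosed_centralizer s
  obtain ⟨u, hu⟩ := hflip M (α.codRestrict M hα) (β.codRestrict M hβ)
    (fun x y => Subtype.ext (hαβ x y)) P ε hε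
  refine ⟨⟨((u : M) : E), Unitary.mem_iff.2
    ⟨congrArg Subtype.val (Unitary.coe_star_mul_self u),
      congrArg Subtype.val (Unitary.coe_mul_star_self u)⟩⟩, fun z hz => ?_, fun d hd => hu d hd⟩
  exact ((StarSubalgebra.mem_centralizer_iff ℂ).1 (u : M).2 z hz).1

theorem mem_centralizer_range {D : Type} [CStarAlgebra D] (f : D →⋆ₐ[ℂ] E) {s : Set E} {x : E}
    (hs : ∀ z ∈ s, ∃ d, f d = z) (h : ∀ d, Commute (f d) x) :
    x ∈ StarSubalgebra.centralizer ℂ s := by
  refine (StarSubalgebra.mem_centralizer_iff ℂ).2 fun z hz => ?_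
  obtain ⟨d, rfl⟩ := hs z hz
  exact ⟨h d, by rw [← map_star]; exact h (star d)⟩

theorem norm_conj_le (u : unitary E) (x : E) : ‖(u : E) * x * star (u : E)‖ ≤ ‖x‖ := by
  rw [← Unitary.coe_star, CStarRing.norm_mul_coe_unitary, CStarRing.norm_coe_unitary_mul]

/-- The flip by a product of exponentials. -/
theorem exists_exp_flip {D : Type} [CStarAlgebra D] (hD : IsJiangSu D) (α β γ δ : D →⋆ₐ[ℂ] E)
    (hαβ : ∀ x y, Commute (α x) (β y)) (hαγ : ∀ x y, Commute (α x) (γ y))
    (hαδ : ∀ x y, Commute (α x) (δ y)) (hβγ : ∀ x y, Commute (β x) (γ y))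
    (hβδ : ∀ x y, Commute (β x) (δ y)) (hγδ : ∀ x y, Commute (γ x) (δ y))
    (P : Finset D) {ε : ℝ} (hε : 0 < ε) :
    ∃ l : List (selfAdjoint E), ∀ d ∈ P,
      ‖((l.map selfAdjoint.expUnitary).prod : E) * α d *
        star ((l.map selfAdjoint.expUnitary).prod : E) - β d‖ ≤ ε := by
  obtain ⟨n, _, hn, ι, -, -⟩ := hD.locallyDrop ∅ 1 one_pos
  obtain ⟨a, has, ha⟩ := exists_relative_flip hD.halfFlip α β hαβ
    (Set.range γ ∪ Set.range δ)
    (fun x => (StarSubalgebra.mem_centralizer_iff ℂ).2 fun z hz => by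
      rcases hz with ⟨y, rfl⟩ | ⟨y, rfl⟩
      · exact ⟨(hαγ x y).symm.eq, by rw [← map_star]; exact (hαγ x (star y)).symm.eq⟩
      · exact ⟨(hαδ x y).symm.eq, by rw [← map_star]; exact (hαδ x (star y)).symm.eq⟩)
    (fun x => (StarSubalgebra.mem_centralizer_iff ℂ).2 fun z hz => by
      rcases hz with ⟨y, rfl⟩ | ⟨y, rfl⟩
      · exact ⟨(hβγ x y).symm.eq, by rw [← map_star]; exact (hβγ x (star y)).symm.eq⟩
      · exact ⟨(hβδ x y).symm.eq, by rw [← map_star]; exact (hβδ x (star y)).symm.eq⟩)
    P (show (0 : ℝ) < ε / 3 by positivity)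
  obtain ⟨b, hbs, hb⟩ := exists_relative_flip hD.halfFlip γ α (fun x y => (hαγ y x).symm)
    (Set.range δ)
    (fun x => mem_centralizer_range δ (fun z hz => hz) fun y => (hγδ x y).symm)
    (fun x => mem_centralizer_range δ (fun z hz => hz) fun y => (hαδ x y).symm)
    P (show (0 : ℝ) < ε / 3 by positivity)
  have hj := joined_commutator hn (δ.comp ι) a b (fun z => has _ (Or.inr ⟨ι z, rfl⟩))
    (fun z => hbs _ ⟨ι z, rfl⟩)
  obtain ⟨l, hl⟩ := Unitary.mem_pathComponentOne_iff.1 (hj : a * b * star a * star b ∈ pathComponent 1)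
  refine ⟨l, fun d hd => ?_⟩
  rw [hl]
  set A : E := (a : E)
  set B : E := (b : E)
  have hA1 : star A * A = 1 := Unitary.coe_star_mul_self a
  have hB1 : star B * B = 1 := Unitary.coe_star_mul_self b
  have hγA : star A * γ d * A = γ d := by
    rw [mul_assoc, (has _ (Or.inl ⟨d, rfl⟩)).eq, ← mul_assoc, hA1, one_mul]
  have e1 : ‖star B * α d * B - γ d‖ ≤ ε / 3 := by
    have h : star B * α d * B - γ d = star B * (α d - B * γ d * star B) * B := by
      rw [mul_sub, sub_mul, ← mul_assoc (star B), ← mul_assoc (star B), hB1, one_mul,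
        mul_assoc (γ d), hB1, mul_one]
    rw [h]
    have h2 := norm_conj_le (star b) (α d - B * γ d * star B)
    rw [Unitary.coe_star, star_star] at h2
    exact h2.trans ((norm_sub_rev _ _).trans_le (hb d hd))
  have key : ((a * b * star a * star b : unitary E) : E) * α d *
      star ((a * b * star a * star b : unitary E) : E) - β d
      = ((a * b * star a : unitary E) : E) * (star B * α d * B - γ d) *
          star ((a * b * star a : unitary E) : E)
        + A * (B * γ d * star B - α d) * star A + (A * α d * star A - β d) := by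
    simp only [Submonoid.coe_mul, Unitary.coe_star, star_mul, star_star]
    have h : A * B * star A * γ d * (A * (star B * star A)) = A * (B * γ d * star B) * star A := by
      calc A * B * star A * γ d * (A * (star B * star A))
          = A * B * (star A * γ d * A) * (star B * star A) := by noncomm_ring
        _ = _ := by rw [hγA]; noncomm_ring
    rw [mul_sub (A * B * star A), sub_mul, mul_sub A, sub_mul _ _ (star A), h]
    simp only [mul_assoc]
    abel
  rw [key]
  refine (norm_add₃_le).trans ?_
  have t1 := (norm_conj_le (a * b * star a) (star B * α d * B - γ d)).trans e1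
  have t2 : ‖A * (B * γ d * star B - α d) * star A‖ ≤ ε / 3 :=
    (norm_conj_le a _).trans (hb d hd)
  linarith [ha d hd]

end

end Vale.Agent.P095.All.Flip
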