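import Vale.Agent.P095.All.FA.CSide
import Vale.Agent.P095.All.FA.Commutator
import Vale.Agent.P095.All.NonUnital
import Vale.Agent.P101.Bridge.Absorb

/-!
# P095: exact unitaries conjugating the copy of `D` into `A`
-/

namespace Vale.Agent.P095.All.CSide

open Filter Topology BoundedContinuousFunction Vale.Agent.P101.KR Vale.Agent.P101.Bridge
  Vale.Agent.P095.Equiv
open scoped MultiplierAlgebra

noncomputable section

variable {G : Type} [Group G] {A C D : Type} [NonUnitalCStarAlgebra A] [NonUnitalCStarAlgebra C]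
  [CStarAlgebra D] {ω : Ultrafilter ℕ} {α : G → A ≃⋆ₐ[ℂ] A}
  {β : G → FA A ω ≃⋆ₐ[ℂ] FA A ω} {ιA : A →⋆ₙₐ[ℂ] C} {ιD : D →⋆ₐ[ℂ] 𝓜(ℂ, C)}
  {γ : G → C ≃⋆ₐ[ℂ] C}

theorem commute_unitLift (hT : IsTensorGen ιA ιD) (d : D) (x : Unitization ℂ A) :
    Commute (ιD d) (unitLift ιA x) := by
  induction x using Unitization.ind with
  | inl_add_inr r a =>
    rw [map_add, unitLift_inr, show (Unitization.inl r : Unitization ℂ A)
      = algebraMap ℂ (Unitization ℂ A) r from rfl, AlgHomClass.commutes]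
    exact (Algebra.commute_algebraMap_right r _).add_right (hT.2.1 a d)

theorem commute_emb_reMap (hT : IsTensorGen ιA ιD) {ω' : Ultrafilter ℕ} (π : ℕ → ℕ)
    (hπ : Tendsto π (ω' : Filter ℕ) (ω : Filter ℕ)) (d : D)
    (z : AOmega (Unitization ℂ A) ω) :
    Commute (emb ω' (ιD d)) (Reindex.reMap ω ω' (unitLift ιA) π hπ z) := by
  obtain ⟨u, rfl⟩ := cls_surjective z
  rw [Reindex.reMap_cls]
  show cls ω' _ * cls ω' _ = cls ω' _ * cls ω' _
  rw [← map_mul, ← map_mul]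
  exact congrArg (cls ω') (BoundedContinuousFunction.ext fun k =>
    (commute_unitLift hT d (u (π k))).eq)

theorem emb_mem_fixedMul (hT : IsTensorGen ιA ιD) (hext : IsExtension α ιA ιD γ)
    (ω' : Ultrafilter ℕ) (d : D) : emb ω' (ιD d) ∈ fixedMul ιA hext.onA ω' := by
  refine ⟨fun a => ?_, fun g a => ?_⟩
  · rw [jA_apply]
    show emb ω' (ιD d) * emb ω' _ = emb ω' _ * emb ω' (ιD d)
    rw [← map_mul, ← map_mul, hT.2.1 a d]
  · rw [jA_apply, jA_apply, ← map_mul, ← map_mul, omegaMap_emb, mul_coe_eq, mul_coe_eq,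
      multMap_coe, hext.onD, hext.onA]

theorem map_expProd {M Q : Type} [CStarAlgebra M] [CStarAlgebra Q] (π : M →⋆ₐ[ℂ] Q)
    (hπ : Continuous π) (l : List (selfAdjoint Q)) (hs : ∀ q, ∃ x, π x = q) :
    ∃ W : unitary M, π (W : M) = ((l.map selfAdjoint.expUnitary).prod : Q) := by
  induction l with
  | nil => exact ⟨1, by simp⟩
  | cons q l ih =>
    obtain ⟨W, hW⟩ := ih
    obtain ⟨x, hx⟩ := hs (q : Q)
    have hq : π (realPart x : M) = (q : Q) := by
      rw [realPart_apply_coe, ← Complex.coe_smul, map_smul, map_add, map_star, hx, q.2.star_eq,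
        Complex.coe_smul, ← two_smul ℝ, smul_smul]
      norm_num
    refine ⟨selfAdjoint.expUnitary (realPart x) * W, ?_⟩
    rw [Submonoid.coe_mul, map_mul, hW, List.map_cons, List.prod_cons, Submonoid.coe_mul,
      selfAdjoint.expUnitary_coe, selfAdjoint.expUnitary_coe]
    congr 1
    let _ : NormedAlgebra ℚ M := NormedAlgebra.restrictScalars ℚ ℂ M
    let _ : NormedAlgebra ℚ Q := NormedAlgebra.restrictScalars ℚ ℂ Q
    rw [NormedSpace.map_exp π hπ, map_smul, hq]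

/-- The flip through a quotient that sees the products with `A`. -/
theorem exists_conj_quot (hD : IsJiangSu D) {E F S R : Type} [CStarAlgebra E] [Semiring F] [StarRing F]
    [Algebra ℂ F] [Semiring S] [StarRing S] [Algebra ℂ S] [CStarAlgebra R] (J : A →⋆ₙₐ[ℂ] E) (M : StarSubalgebra ℂ E)
    [IsClosed (M : Set E)] (hM : ∀ x ∈ M, ∀ a, Commute x (J a)) (q : M →⋆ₐ[ℂ] R)
    (hq : Function.Surjective q) (hn : ∀ (x : M) a, ‖(x : E) * J a‖ ≤ ‖q x‖ * ‖a‖)
    (he : ∀ x y : M, (∀ a, (x : E) * J a = (y : E) * J a) → q x = q y)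
    (gi : Fin 3 → (S →⋆ₐ[ℂ] M)) (gD : D →⋆ₐ[ℂ] M) (p : S →⋆ₐ[ℂ] F) (ψ : D →⋆ₐ[ℂ] F)
    (hl : ∀ d, ∃ x, p x = ψ d)
    (hk : ∀ i x y, p x = p y → ∀ a, (gi i x : E) * J a = (gi i y : E) * J a)
    (hDi : ∀ i d x, Commute (gD d : E) (gi i x : E))
    (hij : ∀ i j, i < j → ∀ x y a,
      (gi i x : E) * (gi j y : E) * J a = (gi j y : E) * (gi i x : E) * J a)
    (P : Finset D) {δ : ℝ} (hδ : 0 < δ) :
    ∃ W : unitary E, (W : E) ∈ M ∧ ∀ d ∈ P, ∀ x, p x = ψ d → ∀ a,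
      ‖star (W : E) * ((gD d : E) * J a) * (W : E) - (gi 0 x : E) * J a‖ ≤ δ * ‖a‖ := by
  have hfac : ∀ i, ∃ θ : D →⋆ₐ[ℂ] R, ∀ d x, p x = ψ d → θ d = q (gi i x) := fun i =>
    exists_factor p (q.comp (gi i)) ψ hl fun x y h => he _ _ (hk i x y h)
  choose θ hθ using hfac
  have hDθ : ∀ i x y, Commute (q.comp gD x) (θ i y) := fun i x y => by
    obtain ⟨z, hz⟩ := hl y
    rw [hθ i y z hz]
    exact (show Commute (gD x) (gi i z) from Subtype.ext (hDi i x z).eq).map q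
  have hθθ : ∀ i j, i < j → ∀ x y, Commute (θ i x) (θ j y) := fun i j hlt x y => by
    obtain ⟨z, hz⟩ := hl x
    obtain ⟨w, hw⟩ := hl y
    rw [hθ i x z hz, hθ j y w hw, Commute, SemiconjBy, ← map_mul q, ← map_mul q]
    exact he _ _ fun a => hij i j hlt z w a
  obtain ⟨l, hlp⟩ := Flip.exists_exp_flip hD (θ 0) (q.comp gD) (θ 1) (θ 2)
    (fun x y => (hDθ 0 y x).symm) (hθθ 0 1 (by decide)) (hθθ 0 2 (by decide)) (hDθ 1) (hDθ 2)
    (hθθ 1 2 (by decide)) P hδ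
  obtain ⟨W₀, hW₀⟩ := map_expProd q (continuous_nonUnitalHom q.toNonUnitalStarAlgHom) l hq
  let W : unitary E := ⟨((W₀ : M) : E), Unitary.mem_iff.2
    ⟨congrArg Subtype.val (Unitary.coe_star_mul_self W₀),
      congrArg Subtype.val (Unitary.coe_mul_star_self W₀)⟩⟩
  refine ⟨W, (W₀ : M).2, fun d hd x hx a => ?_⟩
  set w : E := (W : E) with hw
  have hwc : Commute w (J a) := hM w (W₀ : M).2 a
  set u : E := (gi 0 x : E)
  have h1 : ‖(w * u * star w - (gD d : E)) * J a‖ ≤ δ * ‖a‖ := by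
    refine (hn ((W₀ : M) * gi 0 x * star (W₀ : M) - gD d) a).trans ?_
    refine mul_le_mul_of_nonneg_right ?_ (norm_nonneg a)
    have h := hlp d hd
    rw [hθ 0 d x hx, ← hW₀, ← map_star, ← map_mul, ← map_mul, StarAlgHom.comp_apply, ← map_sub] at h
    exact h
  refine le_trans (le_of_eq ?_) h1
  have e1 : star w * w = 1 := Unitary.coe_star_mul_self W
  have e : star w * ((gD d : E) * J a) * w - u * J a
      = -(star w * ((w * u * star w - (gD d : E)) * J a) * w) := by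
    have e2 : star w * (w * u * star w * J a) * w = u * J a := by
      calc star w * (w * u * star w * J a) * w
          = (star w * w) * u * star w * (J a * w) := by noncomm_ring
        _ = u * star w * (J a * w) := by rw [e1, one_mul]
        _ = u * (star w * w) * J a := by rw [← hwc.eq]; simp only [mul_assoc]
        _ = _ := by rw [e1, mul_one]
    rw [sub_mul _ (gD d : E), mul_sub (star w), sub_mul _ _ w, e2]
    abel
  rw [e, norm_neg, CStarRing.norm_mul_mem_unitary _ W.2,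
    CStarRing.norm_mem_unitary_mul _ (Unitary.star_mem W.2)]

/-- The flip inside an algebra commuting with a copy of `A`. -/
theorem exists_conj_abs (hD : IsJiangSu D) {E F S : Type} [CStarAlgebra E] [Semiring F] [StarRing F]
    [Algebra ℂ F] [Semiring S] [StarRing S] [Algebra ℂ S] (J : A →⋆ₙₐ[ℂ] E) (M : StarSubalgebra ℂ E) [IsClosed (M : Set E)]
    (hM : ∀ x ∈ M, ∀ a, Commute x (J a)) (gi : Fin 3 → (S →⋆ₐ[ℂ] M)) (gD : D →⋆ₐ[ℂ] M)
    (p : S →⋆ₐ[ℂ] F) (ψ : D →⋆ₐ[ℂ] F) (hl : ∀ d, ∃ x, p x = ψ d)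
    (hk : ∀ i x y, p x = p y → ∀ a, (gi i x : E) * J a = (gi i y : E) * J a)
    (hDi : ∀ i d x, Commute (gD d : E) (gi i x : E))
    (hij : ∀ i j, i < j → ∀ x y a,
      (gi i x : E) * (gi j y : E) * J a = (gi j y : E) * (gi i x : E) * J a)
    (P : Finset D) {δ : ℝ} (hδ : 0 < δ) :
    ∃ W : unitary E, (W : E) ∈ M ∧ ∀ d ∈ P, ∀ x, p x = ψ d → ∀ a,
      ‖star (W : E) * ((gD d : E) * J a) * (W : E) - (gi 0 x : E) * J a‖ ≤ δ * ‖a‖ := by
  let R : StarSubalgebra ℂ 𝓜(ℂ, Rel.herOf J) := (Rel.repOf J M hM).range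
  have : IsClosed (R : Set 𝓜(ℂ, Rel.herOf J)) := Rel.isClosed_range J M hM
  exact exists_conj_quot hD J M hM ((Rel.repOf J M hM).codRestrict R fun x => ⟨x, rfl⟩)
    (fun q => by
      obtain ⟨x, hx⟩ := q.2
      exact ⟨x, Subtype.ext hx⟩)
    (fun x a => Rel.norm_mul_image_le (hM := hM) x a)
    (fun x y h => Subtype.ext (Rel.repOf_eq_of (hM := hM) h))
    gi gD p ψ hl hk hDi hij P hδ

variable (A ω) in
/-- The central elements with fixed image. -/
def fixedCentral (β : G → FA A ω ≃⋆ₐ[ℂ] FA A ω) :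
    StarSubalgebra ℂ (CentralAlgebra ω (Unitization ℂ A)) :=
  ⨅ g, StarAlgHom.equalizer ((β g).toStarAlgHom.comp (proj A ω)) (proj A ω)

omit [Group G] in
theorem mem_fixedCentral {x : CentralAlgebra ω (Unitization ℂ A)} :
    x ∈ fixedCentral A ω β ↔ ∀ g, β g (proj A ω x) = proj A ω x := by
  rw [fixedCentral, StarSubalgebra.mem_iInf]
  rfl

instance isClosed_fixedCentral :
    IsClosed (fixedCentral A ω β : Set (CentralAlgebra ω (Unitization ℂ A))) := by
  have e : (fixedCentral A ω β : Set (CentralAlgebra ω (Unitization ℂ A)))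
      = ⋂ g, {x | β g (proj A ω x) = proj A ω x} := by
    ext x
    simp [mem_fixedCentral]
  rw [e]
  exact isClosed_iInter fun g => isClosed_eq
    ((continuous_nonUnitalHom (β g).toStarAlgHom.toNonUnitalStarAlgHom).comp
      (continuous_nonUnitalHom (proj A ω).toNonUnitalStarAlgHom))
    (continuous_nonUnitalHom (proj A ω).toNonUnitalStarAlgHom)

variable (ιA) in
/-- Fixed central elements along one index. -/
def copyHom (hA : ∀ g a, γ g (ιA a) = ιA (α g a)) (hβ : IsInduced A ω α β) (i : Fin 3) :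
    fixedCentral A ω β →⋆ₐ[ℂ] fixedMul ιA hA (Reindex.triple ω) :=
  ((Reindex.copy ω (unitLift ιA) i).comp
    ((central (Unitization ℂ A) ω).subtype.comp (fixedCentral A ω β).subtype)).codRestrict _
    fun x => reMap_mem ιA hA hβ (Reindex.idx i) (Reindex.tendsto_idx i) (mem_fixedCentral.1 x.2)

variable (A ω) in
/-- `proj` on the fixed central elements. -/
def fixedProj (β : G → FA A ω ≃⋆ₐ[ℂ] FA A ω) : fixedCentral A ω β →⋆ₐ[ℂ] FA A ω :=
  (proj A ω).comp (fixedCentral A ω β).subtype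

omit [Group G] in
theorem exists_fixed_lift (ψ : D →⋆ₐ[ℂ] FA A ω) (hψ : ∀ g d, β g (ψ d) = ψ d) (d : D) :
    ∃ x, fixedProj A ω β x = ψ d := by
  obtain ⟨x, hx⟩ := proj_surjective (ψ d)
  exact ⟨⟨x, mem_fixedCentral.2 fun g => by rw [hx, hψ]⟩, hx⟩

/-- `D` among the fixed multipliers. -/
def copyD (hT : IsTensorGen ιA ιD) (hext : IsExtension α ιA ιD γ) (ω' : Ultrafilter ℕ) :
    D →⋆ₐ[ℂ] fixedMul ιA hext.onA ω' :=
  ((emb ω').comp ιD).codRestrict _ fun d => emb_mem_fixedMul hT hext _ d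

omit [Group G] in
theorem copyHom_coe (hA : ∀ g a, γ g (ιA a) = ιA (α g a)) (hβ : IsInduced A ω α β) (i : Fin 3)
    (x : fixedCentral A ω β) :
    (copyHom ιA hA hβ i x : AOmega 𝓜(ℂ, C) (Reindex.triple ω))
      = Reindex.copy ω (unitLift ιA) i x.1.1 := rfl

theorem copyD_coe (hT : IsTensorGen ιA ιD) (hext : IsExtension α ιA ιD γ) (ω' : Ultrafilter ℕ)
    (d : D) : (copyD hT hext ω' d : AOmega 𝓜(ℂ, C) ω') = emb ω' (ιD d) := rfl

omit [Group G] in
theorem copyHom_congr (hA : ∀ g a, γ g (ιA a) = ιA (α g a)) (hβ : IsInduced A ω α β) (i : Fin 3)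
    (x y : fixedCentral A ω β) (h : proj A ω x.1 = proj A ω y.1) (a : A) :
    (copyHom ιA hA hβ i x : AOmega 𝓜(ℂ, C) (Reindex.triple ω)) * jA ιA _ a
      = (copyHom ιA hA hβ i y : AOmega 𝓜(ℂ, C) (Reindex.triple ω)) * jA ιA _ a := by
  rw [copyHom_coe, copyHom_coe, Reindex.copy, reMap_mul_jA, reMap_mul_jA, h]

omit [Group G] in
theorem copyHom_commute (hA : ∀ g a, γ g (ιA a) = ιA (α g a)) (hβ : IsInduced A ω α β)
    (i j : Fin 3) (hlt : i < j) (x y : fixedCentral A ω β) (a : A) :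
    (copyHom ιA hA hβ i x : AOmega 𝓜(ℂ, C) (Reindex.triple ω)) *
        (copyHom ιA hA hβ j y : AOmega 𝓜(ℂ, C) (Reindex.triple ω)) * jA ιA _ a
      = (copyHom ιA hA hβ j y : AOmega 𝓜(ℂ, C) (Reindex.triple ω)) *
        (copyHom ιA hA hβ i x : AOmega 𝓜(ℂ, C) (Reindex.triple ω)) * jA ιA _ a := by
  have h := Reindex.copy_commute_mul (unitLift ιA) (x := x.1.1) (y := y.1.1) y.1.2
    (a : Unitization ℂ A) hlt
  rw [unitLift_inr] at h
  rw [copyHom_coe, copyHom_coe, jA_apply]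
  exact h

/-- The unitary. -/
theorem exists_conj (hD : IsJiangSu D) (hβ : IsInduced A ω α β) (ψ : D →⋆ₐ[ℂ] FA A ω)
    (hψ : ∀ g d, β g (ψ d) = ψ d) (hT : IsTensorGen ιA ιD) (hext : IsExtension α ιA ιD γ)
    (P : Finset D) {δ : ℝ} (hδ : 0 < δ) :
    ∃ W : unitary (AOmega 𝓜(ℂ, C) (Reindex.triple ω)),
      (W : AOmega 𝓜(ℂ, C) (Reindex.triple ω)) ∈ fixedMul ιA hext.onA (Reindex.triple ω) ∧
      ∀ d ∈ P, ∀ a, ∃ Y : ℕ →ᵇ 𝓜(ℂ, C), (∀ n, ∃ b, Y n = ((ιA b : C) : 𝓜(ℂ, C))) ∧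
        ‖star (W : AOmega 𝓜(ℂ, C) (Reindex.triple ω)) *
            (emb (Reindex.triple ω) (ιD d) * jA ιA _ a) *
            (W : AOmega 𝓜(ℂ, C) (Reindex.triple ω)) - cls (Reindex.triple ω) Y‖
          ≤ δ * ‖a‖ := by
  have : IsClosed (fixedMul ιA hext.onA (Reindex.triple ω) :
      Set (AOmega 𝓜(ℂ, C) (Reindex.triple ω))) := isClosed_fixedMul ιA hext.onA _
  obtain ⟨W, hWM, hW⟩ := exists_conj_abs (E := AOmega 𝓜(ℂ, C) (Reindex.triple ω)) (F := FA A ω)
    (S := fixedCentral A ω β) hD (jA ιA (Reindex.triple ω))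
    (fixedMul ιA hext.onA (Reindex.triple ω)) (fun x hx => hx.1)
    (copyHom ιA hext.onA hβ) (copyD hT hext _)
    (fixedProj A ω β) ψ (exists_fixed_lift ψ hψ)
    (fun i x y h a => copyHom_congr hext.onA hβ i x y h a)
    (fun i d x => commute_emb_reMap hT (Reindex.idx i) (Reindex.tendsto_idx i) d x.1.1)
    (copyHom_commute hext.onA hβ) P hδ
  refine ⟨W, hWM, fun d hd a => ?_⟩
  obtain ⟨z, hz⟩ := exists_fixed_lift ψ hψ d
  obtain ⟨Y, hY, hYA⟩ := exists_seq_reMap ιA (Reindex.idx 0) (Reindex.tendsto_idx 0) z.1 a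
  refine ⟨Y, hYA, ?_⟩
  rw [hY, ← copyD_coe hT hext]
  exact hW d hd z hz a

end

end Vale.Agent.P095.All.CSide
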