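import Mathlib

/-!
# P095: elementary identities in multiplier algebras
-/

namespace Vale.Agent.P095.All

open Filter Topology
open scoped MultiplierAlgebra

noncomputable section

variable {C : Type} [NonUnitalCStarAlgebra C]

theorem eq_of_mul_left {u v : C} (h : ∀ x, x * u = x * v) : u = v :=
  sub_eq_zero.1 (CStarRing.star_mul_self_eq_zero_iff _ |>.1 (by rw [mul_sub, h, sub_self]))

theorem eq_of_mul_right {u v : C} (h : ∀ x, u * x = v * x) : u = v :=
  sub_eq_zero.1 (CStarRing.mul_star_self_eq_zero_iff _ |>.1 (by rw [sub_mul, h, sub_self]))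

theorem fst_mul_apply (M : 𝓜(ℂ, C)) (x y : C) : M.fst (x * y) = M.fst x * y :=
  eq_of_mul_left fun z => by rw [← M.central, ← mul_assoc, ← mul_assoc z, M.central]

theorem snd_mul_apply (M : 𝓜(ℂ, C)) (x y : C) : M.snd (x * y) = x * M.snd y :=
  eq_of_mul_right fun z => by rw [M.central, mul_assoc, mul_assoc, M.central]

theorem mul_coe_eq (M : 𝓜(ℂ, C)) (c : C) : M * (c : 𝓜(ℂ, C)) = ((M.fst c : C) : 𝓜(ℂ, C)) :=
  DoubleCentralizer.ext _ _ _ _ (Prod.ext
    (ContinuousLinearMap.ext fun x => fst_mul_apply M c x)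
    (ContinuousLinearMap.ext fun x => M.central x c))

theorem coe_mul_eq (M : 𝓜(ℂ, C)) (c : C) : (c : 𝓜(ℂ, C)) * M = ((M.snd c : C) : 𝓜(ℂ, C)) :=
  DoubleCentralizer.ext _ _ _ _ (Prod.ext
    (ContinuousLinearMap.ext fun x => (M.central c x).symm)
    (ContinuousLinearMap.ext fun x => snd_mul_apply M x c))

theorem coe_eq_coeHom (c : C) : (c : 𝓜(ℂ, C)) = DoubleCentralizer.coeHom c := rfl

theorem coe_injective : Function.Injective fun c : C => (c : 𝓜(ℂ, C)) := fun u v h =>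
  eq_of_mul_left fun x => congrArg (fun M : 𝓜(ℂ, C) => M.snd x) h

theorem norm_coe (c : C) : ‖(c : 𝓜(ℂ, C))‖ = ‖c‖ :=
  NonUnitalStarAlgHom.norm_map (DoubleCentralizer.coeHom (𝕜 := ℂ)) coe_injective c

theorem norm_fst_le (M : 𝓜(ℂ, C)) (c : C) : ‖M.fst c‖ ≤ ‖M‖ * ‖c‖ := by
  simpa using M.fst.le_opNorm c

theorem norm_snd_le (M : 𝓜(ℂ, C)) (c : C) : ‖M.snd c‖ ≤ ‖M‖ * ‖c‖ := by
  simpa using M.snd.le_opNorm c

theorem continuous_fst_apply₁ (c : C) : Continuous fun M : 𝓜(ℂ, C) => M.fst c :=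
  AddMonoidHomClass.continuous_of_bound
    (AddMonoidHom.mk' (fun M : 𝓜(ℂ, C) => M.fst c) fun M N => by simp) ‖c‖ fun M =>
    (norm_fst_le M c).trans_eq (mul_comm _ _)

theorem continuous_snd_apply₁ (c : C) : Continuous fun M : 𝓜(ℂ, C) => M.snd c :=
  AddMonoidHomClass.continuous_of_bound
    (AddMonoidHom.mk' (fun M : 𝓜(ℂ, C) => M.snd c) fun M N => by simp) ‖c‖ fun M =>
    (norm_snd_le M c).trans_eq (mul_comm _ _)

end

end Vale.Agent.P095.All
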