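import Vale.Agent.P095.All.FA.Defs
import Vale.Agent.P095.All.FA.Multiplier

/-!
# P095: elements of `A` as elements of `her A ω`, and their images under `F_ω(A)`
-/

namespace Vale.Agent.P095.All

open Filter Topology Vale.Agent.P101.KR Vale.Agent.P095.Equiv
open scoped MultiplierAlgebra

noncomputable section

/-- Products are dense. -/
theorem mem_closure_products {A : Type} [NonUnitalCStarAlgebra A] (a : A) :
    a ∈ closure (Set.range fun p : A × A => p.1 * p.2) := by
  let _ : PartialOrder A := CStarAlgebra.spectralOrder A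
  have : StarOrderedRing A := CStarAlgebra.spectralOrderedRing A
  have h := CStarAlgebra.increasingApproximateUnit A
  have : (CStarAlgebra.approximateUnit A).NeBot := h.neBot
  exact mem_closure_of_tendsto (h.tendsto_mul_left a)
    (Eventually.of_forall fun x => ⟨(a, x), rfl⟩)

variable {A : Type} [NonUnitalCStarAlgebra A] {ω : Ultrafilter ℕ}

theorem continuous_nonUnitalHom {B C : Type} [NonUnitalCStarAlgebra B] [NonUnitalCStarAlgebra C]
    (f : B →⋆ₙₐ[ℂ] C) : Continuous f :=
  AddMonoidHomClass.continuous_of_bound f 1 fun y => by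
    simpa using NonUnitalStarAlgHom.norm_apply_le f y

theorem embA_mem_her (a : A) : embA A ω a ∈ her A ω := by
  refine (isClosed_her (A := A) (ω := ω)).closure_subset
    (map_mem_closure (continuous_nonUnitalHom (embA A ω)) (mem_closure_products a) ?_)
  rintro _ ⟨⟨a, b⟩, rfl⟩
  refine subset_closure (NonUnitalStarAlgebra.subset_adjoin ℂ _ ⟨(a, 1, b), ?_⟩)
  show embA A ω a * 1 * embA A ω b = embA A ω (a * b)
  rw [mul_one, map_mul]

variable (A ω) in
/-- `A` in `her A ω`. -/
def embHer : A →⋆ₙₐ[ℂ] her A ω := NonUnitalStarAlgHom.codRestrict (embA A ω) (her A ω) embA_mem_her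

theorem embHer_coe (a : A) : (embHer A ω a : AOmega (Unitization ℂ A) ω) = embA A ω a := rfl

theorem denseRange_proj : DenseRange (proj A ω) := by
  refine fun M => closure_subtype.2 ?_
  have hM : (M : 𝓜(ℂ, her A ω)) ∈ closure ((rep A ω).range : Set 𝓜(ℂ, her A ω)) := M.2
  refine closure_mono ?_ hM
  rintro _ ⟨x, rfl⟩
  exact ⟨_, ⟨x, rfl⟩, rfl⟩

/-- The element `M a` of `Ã_ω`, for `M` in `F_ω(A)` and `a` in `A`. -/
def act (M : FA A ω) (a : A) : AOmega (Unitization ℂ A) ω :=
  ((M : 𝓜(ℂ, her A ω)).fst (embHer A ω a)).1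

theorem act_proj (x : CentralAlgebra ω (Unitization ℂ A)) (a : A) :
    act (proj A ω x) a = x.1 * embA A ω a := rfl

theorem act_mem (M : FA A ω) (a : A) : act M a ∈ her A ω := Subtype.property _

theorem norm_act_le (M : FA A ω) (a : A) : ‖act M a‖ ≤ ‖M‖ * ‖a‖ := by
  refine (((M : 𝓜(ℂ, her A ω)).fst.le_opNorm _).trans ?_)
  rw [DoubleCentralizer.norm_fst]
  exact mul_le_mul_of_nonneg_left (NonUnitalStarAlgHom.norm_apply_le _ a) (norm_nonneg _)

theorem continuous_act (a : A) : Continuous fun M : FA A ω => act M a :=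
  continuous_subtype_val.comp ((continuous_fst_apply₁ (embHer A ω a)).comp continuous_subtype_val)

theorem act_one_apply (a : A) : act (1 : FA A ω) a = embA A ω a := rfl

/-- `A` commutes with `F_ω(A)` among the multipliers. -/
theorem mul_embHer (M : FA A ω) (a : A) :
    (M : 𝓜(ℂ, her A ω)) * (embHer A ω a : 𝓜(ℂ, her A ω))
      = (embHer A ω a : 𝓜(ℂ, her A ω)) * (M : 𝓜(ℂ, her A ω)) := by
  refine denseRange_proj.induction_on (p := fun M : FA A ω =>
    (M : 𝓜(ℂ, her A ω)) * (embHer A ω a : 𝓜(ℂ, her A ω))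
      = (embHer A ω a : 𝓜(ℂ, her A ω)) * (M : 𝓜(ℂ, her A ω))) M
    (isClosed_eq (continuous_subtype_val.fun_mul continuous_const)
      (continuous_const.fun_mul continuous_subtype_val)) fun x => ?_
  rw [mul_coe_eq, coe_mul_eq]
  exact congrArg _ (Subtype.ext (embA_central x a).symm)

theorem omegaMap_act {G : Type} {α : G → A ≃⋆ₐ[ℂ] A} {β : G → FA A ω ≃⋆ₐ[ℂ] FA A ω}
    (hβ : IsInduced A ω α β) (g : G) (M : FA A ω) (a : A) :
    omegaMap ω (Unitization.starMap (α g : A →⋆ₙₐ[ℂ] A)) (act M a) = act (β g M) (α g a) := by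
  set T := omegaMap ω (Unitization.starMap (α g : A →⋆ₙₐ[ℂ] A))
  refine denseRange_proj.induction_on (p := fun M => T (act M a) = act (β g M) (α g a)) M
    (isClosed_eq ((continuous_nonUnitalHom T.toNonUnitalStarAlgHom).comp (continuous_act a))
      ((continuous_act _).comp (continuous_nonUnitalHom (β g).toStarAlgHom.toNonUnitalStarAlgHom))) fun x => ?_
  have hemb : ∀ b, T (embA A ω b) = embA A ω (α g b) := fun b => by
    show T (emb ω (b : Unitization ℂ A)) = emb ω ((α g b : A) : Unitization ℂ A)
    rw [omegaMap_emb]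
    exact congrArg (emb ω) (Unitization.starMap_inr _ _)
  have hy : T x.1 ∈ central (Unitization ℂ A) ω := by
    refine mem_central.2 fun u => ?_
    induction u using Unitization.ind with
    | inl_add_inr r b =>
      have h1 : emb ω (Unitization.inl r : Unitization ℂ A) * T x.1
          = T x.1 * emb ω (Unitization.inl r : Unitization ℂ A) := by
        rw [show (Unitization.inl r : Unitization ℂ A) = algebraMap ℂ (Unitization ℂ A) r from rfl,
          AlgHomClass.commutes]
        exact Algebra.commutes _ _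
      have h2 : emb ω (b : Unitization ℂ A) * T x.1 = T x.1 * emb ω (b : Unitization ℂ A) := by
        have hb : T (embA A ω ((α g).symm b)) = embA A ω b := by
          rw [hemb, StarAlgEquiv.apply_symm_apply]
        show embA A ω b * T x.1 = T x.1 * embA A ω b
        rw [← hb, ← map_mul, ← map_mul, embA_central]
      rw [map_add, add_mul, mul_add, h1, h2]
  rw [hβ g x ⟨_, hy⟩ rfl, act_proj, act_proj, map_mul, hemb]

end

end Vale.Agent.P095.All
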