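import Vale.Agent.P095.Equiv.OmegaDefs

/-!
# P095: three independent reindexings along an iterated ultrafilter

If `y` is central, then `y` read along a later index commutes with everything read along an earlier
one, so one central map gives three commuting ones.
-/

namespace Vale.Agent.P095.All.Reindex

open Filter Topology BoundedContinuousFunction Vale.Agent.P101.KR Vale.Agent.P095.Equiv

noncomputable section

/-- The three indices. -/
def idx : Fin 3 → ℕ → ℕ
  | 0, n => (Nat.unpair n).1
  | 1, n => (Nat.unpair (Nat.unpair n).2).1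
  | 2, n => (Nat.unpair (Nat.unpair n).2).2

/-- The iterated ultrafilter. -/
def triple (ω : Ultrafilter ℕ) : Ultrafilter ℕ :=
  ω.bind fun a => ω.bind fun b => ω.map fun c => Nat.pair a (Nat.pair b c)

variable {ω : Ultrafilter ℕ}

theorem eventually_triple {p : ℕ → Prop} :
    (∀ᶠ n in (triple ω : Filter ℕ), p n) ↔
      ∀ᶠ a in (ω : Filter ℕ), ∀ᶠ b in (ω : Filter ℕ), ∀ᶠ c in (ω : Filter ℕ),
        p (Nat.pair a (Nat.pair b c)) :=
  Iff.rfl

theorem triple_le (hω : (ω : Filter ℕ) ≤ cofinite) : (triple ω : Filter ℕ) ≤ cofinite := by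
  refine le_cofinite_iff_compl_singleton_mem.2 fun n => ?_
  refine eventually_triple.2 (Eventually.of_forall fun a => Eventually.of_forall fun b => ?_)
  filter_upwards [le_cofinite_iff_compl_singleton_mem.1 hω (idx 2 n)] with c hc h
  refine hc ?_
  show c = idx 2 n
  rw [Set.mem_singleton_iff] at h
  rw [← h]
  simp [idx]

theorem tendsto_idx (i : Fin 3) : Tendsto (idx i) (triple ω : Filter ℕ) (ω : Filter ℕ) := by
  intro s hs
  show ∀ᶠ n in (triple ω : Filter ℕ), idx i n ∈ s
  rw [eventually_triple]
  fin_cases i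
  · filter_upwards [hs] with a ha
    exact Eventually.of_forall fun b => Eventually.of_forall fun c => by simpa [idx] using ha
  · refine Eventually.of_forall fun a => ?_
    filter_upwards [hs] with b hb
    exact Eventually.of_forall fun c => by simpa [idx] using hb
  · refine Eventually.of_forall fun a => Eventually.of_forall fun b => ?_
    filter_upwards [hs] with c hc
    simpa [idx] using hc

/-- A double sequence small along the later index is small along the pairs of indices. -/
theorem tendsto_pair {f : ℕ → ℕ → ℝ} (hf : ∀ a, Tendsto (f a) (ω : Filter ℕ) (𝓝 0))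
    {i j : Fin 3} (hij : i < j) :
    Tendsto (fun n => f (idx i n) (idx j n)) (triple ω : Filter ℕ) (𝓝 0) := by
  intro s hs
  show ∀ᶠ n in (triple ω : Filter ℕ), f (idx i n) (idx j n) ∈ s
  rw [eventually_triple]
  have h : ∀ a, ∀ᶠ b in (ω : Filter ℕ), f a b ∈ s := fun a => hf a hs
  fin_cases i <;> fin_cases j <;> simp at hij
  · refine Eventually.of_forall fun a => ?_
    filter_upwards [h a] with b hb
    exact Eventually.of_forall fun c => by simpa [idx] using hb
  · refine Eventually.of_forall fun a => Eventually.of_forall fun b => ?_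
    filter_upwards [h a] with c hc
    simpa [idx] using hc
  · refine Eventually.of_forall fun a => Eventually.of_forall fun b => ?_
    filter_upwards [h b] with c hc
    simpa [idx] using hc

variable {B E : Type} [CStarAlgebra B] [CStarAlgebra E]

/-- A map of ultrapowers along a reindexing. -/
def reMap (ω : Ultrafilter ℕ) (ω' : Ultrafilter ℕ) (f : B →⋆ₐ[ℂ] E) (π : ℕ → ℕ)
    (hπ : Tendsto π (ω' : Filter ℕ) (ω : Filter ℕ)) : AOmega B ω →⋆ₐ[ℂ] AOmega E ω' :=
  have hrep : ∀ z : AOmega B ω, cls ω (Function.surjInv cls_surjective z) = z :=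
    Function.surjInv_eq cls_surjective
  let g : (ℕ →ᵇ B) →⋆ₐ[ℂ] AOmega E ω' := (cls ω').comp ((seqMap f).comp (reindex π))
  have hwd : ∀ x : ℕ →ᵇ B, g (Function.surjInv cls_surjective (cls ω x)) = g x := fun x => by
    refine cls_eq_iff.2 ?_
    refine squeeze_zero' (Eventually.of_forall fun _ => norm_nonneg _)
      (Eventually.of_forall fun k => ?_) ((cls_eq_iff.1 (hrep (cls ω x))).comp hπ)
    show ‖f (Function.surjInv cls_surjective (cls ω x) (π k)) - f (x (π k))‖ ≤ _
    rw [← map_sub]
    exact NonUnitalStarAlgHom.norm_apply_le f _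
  { toFun := fun z => g (Function.surjInv cls_surjective z)
    map_one' := by rw [← map_one (cls (A := B) ω), hwd, map_one]
    map_zero' := by rw [← map_zero (cls (A := B) ω), hwd, map_zero]
    map_mul' := fun z w => by
      conv_lhs => rw [← hrep z, ← hrep w, ← map_mul]
      rw [hwd, map_mul]
    map_add' := fun z w => by
      conv_lhs => rw [← hrep z, ← hrep w, ← map_add]
      rw [hwd, map_add]
    commutes' := fun r => by
      rw [← AlgHomClass.commutes (cls (A := B) ω) r, hwd, AlgHomClass.commutes]
    map_star' := fun z => by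
      conv_lhs => rw [← hrep z, ← map_star]
      rw [hwd, map_star] }

theorem reMap_cls {ω' : Ultrafilter ℕ} (f : B →⋆ₐ[ℂ] E) (π : ℕ → ℕ)
    (hπ : Tendsto π (ω' : Filter ℕ) (ω : Filter ℕ)) (x : ℕ →ᵇ B) :
    reMap ω ω' f π hπ (cls ω x) = cls ω' (seqMap f (reindex π x)) := by
  refine cls_eq_iff.2 ?_
  refine squeeze_zero' (Eventually.of_forall fun _ => norm_nonneg _)
    (Eventually.of_forall fun k => ?_)
    ((cls_eq_iff.1 (Function.surjInv_eq cls_surjective (cls ω x))).comp hπ)
  show ‖f (Function.surjInv cls_surjective (cls ω x) (π k)) - f (x (π k))‖ ≤ _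
  rw [← map_sub]
  exact NonUnitalStarAlgHom.norm_apply_le f _

theorem reMap_emb {ω' : Ultrafilter ℕ} (f : B →⋆ₐ[ℂ] E) (π : ℕ → ℕ)
    (hπ : Tendsto π (ω' : Filter ℕ) (ω : Filter ℕ)) (b : B) :
    reMap ω ω' f π hπ (emb ω b) = emb ω' (f b) :=
  reMap_cls f π hπ _

/-- The copy along index `i`. -/
abbrev copy (ω : Ultrafilter ℕ) (f : B →⋆ₐ[ℂ] E) (i : Fin 3) :
    AOmega B ω →⋆ₐ[ℂ] AOmega E (triple ω) :=
  reMap ω (triple ω) f (idx i) (tendsto_idx i)

/-- Different copies of central elements commute on the products. -/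
theorem copy_commute_mul (f : B →⋆ₐ[ℂ] E) {x y : AOmega B ω} (hy : y ∈ central B ω) (a : B)
    {i j : Fin 3} (hij : i < j) :
    copy ω f i x * copy ω f j y * emb (triple ω) (f a)
      = copy ω f j y * copy ω f i x * emb (triple ω) (f a) := by
  obtain ⟨u, rfl⟩ := cls_surjective x
  obtain ⟨v, rfl⟩ := cls_surjective y
  have hc := cls_mem_central.1 hy
  let g : ℕ → ℕ → ℝ := fun k m => ‖u k * v m * a - v m * u k * a‖
  have hg : ∀ k, Tendsto (g k) (ω : Filter ℕ) (𝓝 0) := by
    intro k
    have h := ((hc a).const_mul ‖u k‖).add (hc (u k * a))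
    rw [mul_zero, zero_add] at h
    refine squeeze_zero' (Eventually.of_forall fun _ => norm_nonneg _)
      (Eventually.of_forall fun m => ?_) h
    show ‖u k * v m * a - v m * u k * a‖ ≤ ‖u k‖ * ‖a * v m - v m * a‖ + ‖u k * a * v m - v m * (u k * a)‖
    rw [norm_sub_rev (a * v m)]
    calc ‖u k * v m * a - v m * u k * a‖
        = ‖u k * (v m * a - a * v m) + (u k * a * v m - v m * (u k * a))‖ := by
          congr 1; noncomm_ring
      _ ≤ _ := (norm_add_le _ _).trans (add_le_add (norm_mul_le _ _) le_rfl)
  rw [copy, copy, reMap_cls, reMap_cls]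
  have key : cls (triple ω)
        (seqMap f (reindex (idx i) u) * seqMap f (reindex (idx j) v) * const ℕ (f a))
      = cls (triple ω)
        (seqMap f (reindex (idx j) v) * seqMap f (reindex (idx i) u) * const ℕ (f a)) := by
    refine cls_eq_iff.2 (squeeze_zero' (Eventually.of_forall fun _ => norm_nonneg _)
      (Eventually.of_forall fun n => ?_) (tendsto_pair hg hij))
    show ‖f (u (idx i n)) * f (v (idx j n)) * f a - f (v (idx j n)) * f (u (idx i n)) * f a‖ ≤ _
    simp only [← map_mul, ← map_sub]
    exact NonUnitalStarAlgHom.norm_apply_le f _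
  rw [map_mul, map_mul, map_mul, map_mul] at key
  exact key

end

end Vale.Agent.P095.All.Reindex
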