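import Vale.Agent.P095.All.FA.Multiplier

/-!
# P095: strict limits and extensions of automorphisms to multiplier algebras
-/

namespace Vale.Agent.P095.All

open Filter Topology
open scoped MultiplierAlgebra

noncomputable section

variable {C : Type} [NonUnitalCStarAlgebra C]

theorem isometry_starEquiv (e : C ≃⋆ₐ[ℂ] C) (c : C) : ‖e c‖ = ‖c‖ :=
  NonUnitalStarAlgHom.norm_map e (EquivLike.injective e) c

theorem coe_mul' (x y : C) : ((x * y : C) : 𝓜(ℂ, C)) = (x : 𝓜(ℂ, C)) * (y : 𝓜(ℂ, C)) :=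
  map_mul (DoubleCentralizer.coeHom (𝕜 := ℂ)) x y

theorem coe_star' (x : C) : ((star x : C) : 𝓜(ℂ, C)) = star (x : 𝓜(ℂ, C)) :=
  map_star (DoubleCentralizer.coeHom (𝕜 := ℂ)) x

theorem coe_sub' (x y : C) : ((x - y : C) : 𝓜(ℂ, C)) = (x : 𝓜(ℂ, C)) - (y : 𝓜(ℂ, C)) :=
  map_sub (DoubleCentralizer.coeHom (𝕜 := ℂ)) x y

/-- An automorphism as a continuous linear map. -/
def equivCLM (e : C ≃⋆ₐ[ℂ] C) : C →L[ℂ] C :=
  LinearMap.mkContinuous
    { toFun := e
      map_add' := map_add e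
      map_smul' := fun r x => map_smul e r x } 1
    fun x => by simpa using (isometry_starEquiv e x).le

theorem equivCLM_apply (e : C ≃⋆ₐ[ℂ] C) (c : C) : equivCLM e c = e c := rfl

/-- An automorphism transported to one multiplier. -/
def multFun (e : C ≃⋆ₐ[ℂ] C) (M : 𝓜(ℂ, C)) : 𝓜(ℂ, C) where
  toProd := ((equivCLM e).comp (M.fst.comp (equivCLM e.symm)),
    (equivCLM e).comp (M.snd.comp (equivCLM e.symm)))
  central x y := by
    show e (M.snd (e.symm x)) * y = x * e (M.fst (e.symm y))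
    conv_lhs => rw [← e.apply_symm_apply y, ← map_mul, M.central, map_mul, e.apply_symm_apply]

theorem multFun_fst (e : C ≃⋆ₐ[ℂ] C) (M : 𝓜(ℂ, C)) (c : C) :
    (multFun e M).fst c = e (M.fst (e.symm c)) := rfl

theorem multFun_snd (e : C ≃⋆ₐ[ℂ] C) (M : 𝓜(ℂ, C)) (c : C) :
    (multFun e M).snd c = e (M.snd (e.symm c)) := rfl

theorem multiplier_ext' {M N : 𝓜(ℂ, C)} (h₁ : ∀ c, M.fst c = N.fst c)
    (h₂ : ∀ c, M.snd c = N.snd c) : M = N :=
  DoubleCentralizer.ext _ _ _ _ (Prod.ext (ContinuousLinearMap.ext h₁) (ContinuousLinearMap.ext h₂))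

/-- The extension of an automorphism to the multipliers. -/
def multMap (e : C ≃⋆ₐ[ℂ] C) : 𝓜(ℂ, C) →⋆ₐ[ℂ] 𝓜(ℂ, C) where
  toFun := multFun e
  map_one' := by
    apply multiplier_ext' <;> intro c <;> simp [multFun_fst, multFun_snd]
  map_zero' := by
    apply multiplier_ext' <;> intro c <;> simp [multFun_fst, multFun_snd]
  map_mul' M N := by
    apply multiplier_ext' <;> intro c <;> simp [multFun_fst, multFun_snd]
  map_add' M N := by
    apply multiplier_ext' <;> intro c <;> simp [multFun_fst, multFun_snd]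
  commutes' r := by
    apply multiplier_ext' <;> intro c <;>
      simp [multFun_fst, multFun_snd, Algebra.algebraMap_eq_smul_one, map_smul]
  map_star' M := by
    apply multiplier_ext' <;> intro c <;> simp [multFun_fst, multFun_snd, map_star]

theorem multMap_fst (e : C ≃⋆ₐ[ℂ] C) (M : 𝓜(ℂ, C)) (c : C) :
    (multMap e M).fst c = e (M.fst (e.symm c)) := rfl

theorem multMap_snd (e : C ≃⋆ₐ[ℂ] C) (M : 𝓜(ℂ, C)) (c : C) :
    (multMap e M).snd c = e (M.snd (e.symm c)) := rfl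

theorem multMap_coe (e : C ≃⋆ₐ[ℂ] C) (c : C) :
    multMap e (c : 𝓜(ℂ, C)) = ((e c : C) : 𝓜(ℂ, C)) := by
  apply multiplier_ext' <;> intro x <;>
    simp [multMap_fst, multMap_snd, DoubleCentralizer.coe_fst, DoubleCentralizer.coe_snd]

/-- Convergence in the strict topology. -/
def StrictTo (x : ℕ → 𝓜(ℂ, C)) (X : 𝓜(ℂ, C)) : Prop :=
  ∀ c, Tendsto (fun n => (x n).fst c) atTop (𝓝 (X.fst c)) ∧
    Tendsto (fun n => (x n).snd c) atTop (𝓝 (X.snd c))

theorem exists_strictTo {x : ℕ → 𝓜(ℂ, C)} (hx : ∀ n, ‖x n‖ ≤ 1)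
    (h₁ : ∀ c, CauchySeq fun n => (x n).fst c) (h₂ : ∀ c, CauchySeq fun n => (x n).snd c) :
    ∃ X, StrictTo x X := by
  choose L hL using fun c => cauchySeq_tendsto_of_complete (h₁ c)
  choose R hR using fun c => cauchySeq_tendsto_of_complete (h₂ c)
  have hb : ∀ n c, ‖(x n).fst c‖ ≤ 1 * ‖c‖ ∧ ‖(x n).snd c‖ ≤ 1 * ‖c‖ := fun n c =>
    ⟨(norm_fst_le _ c).trans (mul_le_mul_of_nonneg_right (hx n) (norm_nonneg c)),
      (norm_snd_le _ c).trans (mul_le_mul_of_nonneg_right (hx n) (norm_nonneg c))⟩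
  let l : C →L[ℂ] C := LinearMap.mkContinuous
    { toFun := L
      map_add' := fun a b => tendsto_nhds_unique (hL _) (by simpa using (hL a).add (hL b))
      map_smul' := fun r a => tendsto_nhds_unique (hL _) (by simpa using (hL a).const_smul r) } 1
    fun c => le_of_tendsto (hL c).norm (Eventually.of_forall fun n => (hb n c).1)
  let r : C →L[ℂ] C := LinearMap.mkContinuous
    { toFun := R
      map_add' := fun a b => tendsto_nhds_unique (hR _) (by simpa using (hR a).add (hR b))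
      map_smul' := fun r a => tendsto_nhds_unique (hR _) (by simpa using (hR a).const_smul r) } 1
    fun c => le_of_tendsto (hR c).norm (Eventually.of_forall fun n => (hb n c).2)
  exact ⟨⟨(l, r), fun a b => tendsto_nhds_unique ((hR a).mul_const b)
    (((hL b).const_mul a).congr fun n => ((x n).central a b).symm)⟩, fun c => ⟨hL c, hR c⟩⟩

theorem StrictTo.unique {x : ℕ → 𝓜(ℂ, C)} {X Y : 𝓜(ℂ, C)} (h : StrictTo x X)
    (h' : StrictTo x Y) : X = Y :=
  multiplier_ext' (fun c => tendsto_nhds_unique (h c).1 (h' c).1)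
    fun c => tendsto_nhds_unique (h c).2 (h' c).2

theorem StrictTo.const (X : 𝓜(ℂ, C)) : StrictTo (fun _ => X) X :=
  fun _ => ⟨tendsto_const_nhds, tendsto_const_nhds⟩

theorem StrictTo.star {x : ℕ → 𝓜(ℂ, C)} {X : 𝓜(ℂ, C)} (h : StrictTo x X) :
    StrictTo (fun n => Star.star (x n)) (Star.star X) := fun c => by
  simp only [DoubleCentralizer.star_fst, DoubleCentralizer.star_snd]
  exact ⟨(continuous_star.tendsto _).comp (h _).2, (continuous_star.tendsto _).comp (h _).1⟩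

theorem StrictTo.map {x : ℕ → 𝓜(ℂ, C)} {X : 𝓜(ℂ, C)} (h : StrictTo x X) (e : C ≃⋆ₐ[ℂ] C) :
    StrictTo (fun n => multMap e (x n)) (multMap e X) := fun c =>
  ⟨((equivCLM e).continuous.tendsto _).comp (h (e.symm c)).1,
    ((equivCLM e).continuous.tendsto _).comp (h (e.symm c)).2⟩

theorem StrictTo.fst_tendsto {x : ℕ → 𝓜(ℂ, C)} {X : 𝓜(ℂ, C)} (hx : ∀ n, ‖x n‖ ≤ 1)
    (h : StrictTo x X) {c : ℕ → C} {d : C} (hc : Tendsto c atTop (𝓝 d)) :
    Tendsto (fun n => (x n).fst (c n)) atTop (𝓝 (X.fst d)) := by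
  have h0 : Tendsto (fun n => (x n).fst (c n - d)) atTop (𝓝 0) :=
    squeeze_zero_norm (fun n => (norm_fst_le _ _).trans
        (mul_le_of_le_one_left (norm_nonneg _) (hx n)))
      (tendsto_iff_norm_sub_tendsto_zero.1 hc)
  simpa [map_sub] using h0.add (h d).1

theorem StrictTo.snd_tendsto {x : ℕ → 𝓜(ℂ, C)} {X : 𝓜(ℂ, C)} (hx : ∀ n, ‖x n‖ ≤ 1)
    (h : StrictTo x X) {c : ℕ → C} {d : C} (hc : Tendsto c atTop (𝓝 d)) :
    Tendsto (fun n => (x n).snd (c n)) atTop (𝓝 (X.snd d)) := by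
  have h0 : Tendsto (fun n => (x n).snd (c n - d)) atTop (𝓝 0) :=
    squeeze_zero_norm (fun n => (norm_snd_le _ _).trans
        (mul_le_of_le_one_left (norm_nonneg _) (hx n)))
      (tendsto_iff_norm_sub_tendsto_zero.1 hc)
  simpa [map_sub] using h0.add (h d).2

theorem StrictTo.mul {x y : ℕ → 𝓜(ℂ, C)} {X Y : 𝓜(ℂ, C)} (hx : ∀ n, ‖x n‖ ≤ 1)
    (hy : ∀ n, ‖y n‖ ≤ 1) (h : StrictTo x X) (h' : StrictTo y Y) :
    StrictTo (fun n => x n * y n) (X * Y) := fun c =>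
  ⟨h.fst_tendsto hx (h' c).1, h'.snd_tendsto hy (h c).2⟩

theorem norm_unitary_le (u : unitary 𝓜(ℂ, C)) : ‖(u : 𝓜(ℂ, C))‖ ≤ 1 := by
  rcases subsingleton_or_nontrivial 𝓜(ℂ, C) with h | h
  · simp [Subsingleton.elim (u : 𝓜(ℂ, C)) 0]
  · exact le_of_eq (CStarRing.norm_coe_unitary u)

/-- Conjugation by a unitary multiplier. -/
def conjC (u : unitary 𝓜(ℂ, C)) (c : C) : C :=
  (u : 𝓜(ℂ, C)).fst ((star (u : 𝓜(ℂ, C))).snd c)

theorem coe_conjC (u : unitary 𝓜(ℂ, C)) (c : C) :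
    ((conjC u c : C) : 𝓜(ℂ, C)) = (u : 𝓜(ℂ, C)) * (c : 𝓜(ℂ, C)) * star (u : 𝓜(ℂ, C)) := by
  rw [conjC, ← mul_coe_eq, ← coe_mul_eq, mul_assoc]

theorem norm_conjC (u : unitary 𝓜(ℂ, C)) (c : C) : ‖conjC u c‖ = ‖c‖ := by
  rw [← norm_coe, coe_conjC, ← Unitary.coe_star, CStarRing.norm_mul_coe_unitary,
    CStarRing.norm_coe_unitary_mul, norm_coe]

/-- Conjugation as a `*`-homomorphism. -/
def conjCHom (u : unitary 𝓜(ℂ, C)) : C →⋆ₙₐ[ℂ] C where
  toFun := conjC u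
  map_smul' r x := by simp [conjC]
  map_zero' := by simp [conjC]
  map_add' x y := by simp [conjC]
  map_mul' x y := coe_injective (by
    show ((conjC u (x * y) : C) : 𝓜(ℂ, C)) = ((conjC u x * conjC u y : C) : 𝓜(ℂ, C))
    have h : star (u : 𝓜(ℂ, C)) * u = 1 := Unitary.coe_star_mul_self u
    rw [coe_mul', coe_conjC, coe_conjC, coe_conjC, coe_mul']
    calc (u : 𝓜(ℂ, C)) * ((x : 𝓜(ℂ, C)) * (y : 𝓜(ℂ, C))) * star (u : 𝓜(ℂ, C))
        = (u : 𝓜(ℂ, C)) * (x : 𝓜(ℂ, C)) * (star (u : 𝓜(ℂ, C)) * u) * (y : 𝓜(ℂ, C)) *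
            star (u : 𝓜(ℂ, C)) := by rw [h]; noncomm_ring
      _ = _ := by noncomm_ring)
  map_star' x := coe_injective (by
    show ((conjC u (star x) : C) : 𝓜(ℂ, C)) = ((star (conjC u x) : C) : 𝓜(ℂ, C))
    rw [coe_star', coe_conjC, coe_conjC, coe_star', star_mul, star_mul, star_star, mul_assoc])

theorem conjCHom_apply (u : unitary 𝓜(ℂ, C)) (c : C) : conjCHom u c = conjC u c := rfl

end

end Vale.Agent.P095.All
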