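import Vale.Agent.P095.All.FA.Rep
import Vale.Agent.P095.All.FA.Reindex
import Vale.Agent.P095.All.FA.Strict
import Vale.Agent.P095.All.FA.Props.Induced

/-!
# P095: fixed central maps seen in the ultrapower of the multipliers of the extension
-/

namespace Vale.Agent.P095.All.CSide

open Filter Topology BoundedContinuousFunction Vale.Agent.P101.KR Vale.Agent.P095.Equiv
open scoped MultiplierAlgebra

noncomputable section

/-- A map factors through another one if the kernels allow it and lifts exist. -/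
theorem exists_factor {S D F Q : Type} [Semiring S] [StarRing S] [Algebra ℂ S] [CStarAlgebra D]
    [Semiring F] [StarRing F] [Algebra ℂ F] [CStarAlgebra Q] (p : S →⋆ₐ[ℂ] F) (g : S →⋆ₐ[ℂ] Q) (φ : D →⋆ₐ[ℂ] F)
    (hl : ∀ d, ∃ x, p x = φ d) (hk : ∀ x y, p x = p y → g x = g y) :
    ∃ θ : D →⋆ₐ[ℂ] Q, ∀ d x, p x = φ d → θ d = g x := by
  choose l hl using hl
  refine ⟨{ toFun := fun d => g (l d)
            map_one' := (hk _ 1 (by rw [hl, map_one, map_one])).trans (map_one g)
            map_zero' := (hk _ 0 (by rw [hl, map_zero, map_zero])).trans (map_zero g)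
            map_mul' := fun x y => (hk _ (l x * l y) (by
              rw [hl, map_mul p, hl, hl, map_mul φ])).trans (map_mul g _ _)
            map_add' := fun x y => (hk _ (l x + l y) (by
              rw [hl, map_add p, hl, hl, map_add φ])).trans (map_add g _ _)
            commutes' := fun r => (hk _ (algebraMap ℂ S r) (by
              rw [hl, AlgHomClass.commutes, AlgHomClass.commutes])).trans (AlgHomClass.commutes g r)
            map_star' := fun x => (hk _ (star (l x)) (by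
              rw [hl, map_star p, hl, map_star φ])).trans (map_star g _) }, fun d x hx => ?_⟩
  exact hk _ _ ((hl d).trans hx.symm)

variable {A C : Type} [NonUnitalCStarAlgebra A] [NonUnitalCStarAlgebra C] (ιA : A →⋆ₙₐ[ℂ] C)

/-- The unitization of `A` among the multipliers. -/
def unitLift : Unitization ℂ A →⋆ₐ[ℂ] 𝓜(ℂ, C) :=
  Unitization.starLift ((DoubleCentralizer.coeHom (𝕜 := ℂ)).comp ιA)

theorem unitLift_inr (a : A) :
    unitLift ιA (a : Unitization ℂ A) = ((ιA a : C) : 𝓜(ℂ, C)) := by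
  show (Unitization.starLift.symm (Unitization.starLift
    ((DoubleCentralizer.coeHom (𝕜 := ℂ)).comp ιA))) a = _
  rw [Equiv.symm_apply_apply]
  rfl

/-- `A` in the ultrapower of the multipliers. -/
def jA (ω' : Ultrafilter ℕ) : A →⋆ₙₐ[ℂ] AOmega 𝓜(ℂ, C) ω' :=
  (emb ω').toNonUnitalStarAlgHom.comp ((DoubleCentralizer.coeHom (𝕜 := ℂ)).comp ιA)

theorem jA_apply (ω' : Ultrafilter ℕ) (a : A) :
    jA ιA ω' a = emb ω' ((ιA a : C) : 𝓜(ℂ, C)) := rfl

theorem reMap_embA {ω ω' : Ultrafilter ℕ} (π : ℕ → ℕ)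
    (hπ : Tendsto π (ω' : Filter ℕ) (ω : Filter ℕ)) (a : A) :
    Reindex.reMap ω ω' (unitLift ιA) π hπ (embA A ω a) = jA ιA ω' a := by
  rw [embA_apply, Reindex.reMap_emb, unitLift_inr, jA_apply]

variable {G : Type} {α : G → A ≃⋆ₐ[ℂ] A} {γ : G → C ≃⋆ₐ[ℂ] C}
  (hA : ∀ g a, γ g (ιA a) = ιA (α g a))

include hA

theorem multMap_unitLift (g : G) (x : Unitization ℂ A) :
    multMap (γ g) (unitLift ιA x)
      = unitLift ιA (Unitization.starMap (α g : A →⋆ₙₐ[ℂ] A) x) := by
  induction x using Unitization.ind with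
  | inl_add_inr r a =>
    have h1 : ∀ f : Unitization ℂ A →⋆ₐ[ℂ] 𝓜(ℂ, C),
        f (Unitization.inl r) = algebraMap ℂ 𝓜(ℂ, C) r := fun f => AlgHomClass.commutes f r
    have h2 : Unitization.starMap (α g : A →⋆ₙₐ[ℂ] A) (Unitization.inl r) = Unitization.inl r :=
      AlgHomClass.commutes _ r
    rw [map_add, map_add, map_add, map_add, h2, h1 (unitLift ιA), AlgHomClass.commutes,
      unitLift_inr, multMap_coe, hA, Unitization.starMap_inr, unitLift_inr]
    rfl

theorem omegaMap_jA {ω' : Ultrafilter ℕ} (g : G) (a : A) :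
    omegaMap ω' (multMap (γ g)) (jA ιA ω' a) = jA ιA ω' (α g a) := by
  rw [jA_apply, omegaMap_emb, multMap_coe, hA, jA_apply]

theorem omegaMap_reMap {ω ω' : Ultrafilter ℕ} (π : ℕ → ℕ)
    (hπ : Tendsto π (ω' : Filter ℕ) (ω : Filter ℕ)) (g : G)
    (z : AOmega (Unitization ℂ A) ω) :
    omegaMap ω' (multMap (γ g)) (Reindex.reMap ω ω' (unitLift ιA) π hπ z)
      = Reindex.reMap ω ω' (unitLift ιA) π hπ
          (omegaMap ω (Unitization.starMap (α g : A →⋆ₙₐ[ℂ] A)) z) := by
  obtain ⟨u, rfl⟩ := cls_surjective z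
  rw [Reindex.reMap_cls, omegaMap_cls, omegaMap_cls, Reindex.reMap_cls]
  exact congrArg (cls ω') (BoundedContinuousFunction.ext fun k => multMap_unitLift ιA hA g _)

/-- Commuting with `A` and fixed on the products with `A`. -/
def fixedMul (ω' : Ultrafilter ℕ) : StarSubalgebra ℂ (AOmega 𝓜(ℂ, C) ω') where
  carrier := {x | (∀ a, Commute x (jA ιA ω' a)) ∧
    ∀ g a, omegaMap ω' (multMap (γ g)) (x * jA ιA ω' a) = x * jA ιA ω' (α g a)}
  mul_mem' := by
    rintro x y ⟨hx, hx'⟩ ⟨hy, hy'⟩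
    refine ⟨fun a => (hx a).mul_left (hy a), fun g a => ?_⟩
    have hcl : IsClosed {a : A | omegaMap ω' (multMap (γ g)) (x * y * jA ιA ω' a)
        = x * y * jA ιA ω' (α g a)} := isClosed_eq
      ((continuous_nonUnitalHom (omegaMap ω' (multMap (γ g))).toNonUnitalStarAlgHom).comp
        (continuous_const.fun_mul (continuous_nonUnitalHom (jA ιA ω'))))
      (continuous_const.fun_mul ((continuous_nonUnitalHom (jA ιA ω')).comp
        (continuous_nonUnitalHom (α g : A →⋆ₙₐ[ℂ] A))))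
    refine closure_minimal ?_ hcl (mem_closure_products a)
    rintro _ ⟨⟨b, c⟩, rfl⟩
    show omegaMap ω' (multMap (γ g)) (x * y * jA ιA ω' (b * c))
      = x * y * jA ιA ω' (α g (b * c))
    have e : ∀ b c, x * y * jA ιA ω' (b * c) = x * jA ιA ω' b * (y * jA ιA ω' c) := fun b c => by
      rw [map_mul, mul_assoc x, ← mul_assoc y, (hy b).eq]
      simp only [mul_assoc]
    rw [e, map_mul, hx', hy', map_mul (α g), e]
  add_mem' := by
    rintro x y ⟨hx, hx'⟩ ⟨hy, hy'⟩
    exact ⟨fun a => (hx a).add_left (hy a), fun g a => by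
      rw [add_mul, map_add, hx', hy', add_mul]⟩
  algebraMap_mem' r := ⟨fun a => Algebra.commutes r _, fun g a => by
    rw [map_mul, AlgHomClass.commutes, omegaMap_jA ιA hA]⟩
  star_mem' := by
    rintro x ⟨hx, hx'⟩
    have hs : ∀ a, Commute (star x) (jA ιA ω' a) := fun a => by
      have := (hx (star a)).star_star
      rwa [map_star, star_star] at this
    refine ⟨hs, fun g a => ?_⟩
    have e : ∀ a, star x * jA ιA ω' a = star (x * jA ιA ω' (star a)) := fun a => by
      rw [star_mul, ← map_star, star_star, (hs a).eq]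
    rw [e, map_star, hx', map_star (α g), e]

theorem mem_fixedMul {ω' : Ultrafilter ℕ} {x : AOmega 𝓜(ℂ, C) ω'} :
    x ∈ fixedMul ιA hA ω' ↔ (∀ a, Commute x (jA ιA ω' a)) ∧
      ∀ g a, omegaMap ω' (multMap (γ g)) (x * jA ιA ω' a) = x * jA ιA ω' (α g a) := Iff.rfl

theorem isClosed_fixedMul (ω' : Ultrafilter ℕ) :
    IsClosed (fixedMul ιA hA ω' : Set (AOmega 𝓜(ℂ, C) ω')) := by
  have e : (fixedMul ιA hA ω' : Set (AOmega 𝓜(ℂ, C) ω')) =
      (⋂ a, {x | x * jA ιA ω' a = jA ιA ω' a * x}) ∩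
      ⋂ g, ⋂ a, {x | omegaMap ω' (multMap (γ g)) (x * jA ιA ω' a) = x * jA ιA ω' (α g a)} := by
    ext x
    simp [mem_fixedMul, Commute, SemiconjBy]
  rw [e]
  exact (isClosed_iInter fun a => isClosed_eq (continuous_id.fun_mul continuous_const)
      (continuous_const.fun_mul continuous_id)).inter
    (isClosed_iInter fun g => isClosed_iInter fun a => isClosed_eq
      ((continuous_nonUnitalHom (omegaMap ω' (multMap (γ g))).toNonUnitalStarAlgHom).comp
        (continuous_id.fun_mul continuous_const))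
      (continuous_id.fun_mul continuous_const))

variable {ω ω' : Ultrafilter ℕ} {β : G → FA A ω ≃⋆ₐ[ℂ] FA A ω}

theorem reMap_mem (hβ : IsInduced A ω α β) (π : ℕ → ℕ)
    (hπ : Tendsto π (ω' : Filter ℕ) (ω : Filter ℕ)) {x : CentralAlgebra ω (Unitization ℂ A)}
    (hx : ∀ g, β g (proj A ω x) = proj A ω x) :
    Reindex.reMap ω ω' (unitLift ιA) π hπ x.1 ∈ fixedMul ιA hA ω' := by
  refine ⟨fun a => ?_, fun g a => ?_⟩
  · rw [← reMap_embA ιA π hπ, Commute, SemiconjBy, ← map_mul, ← map_mul, embA_central]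
  · rw [← reMap_embA ιA π hπ, ← map_mul, omegaMap_reMap ιA hA, ← act_proj, omegaMap_act hβ, hx,
      act_proj, map_mul, reMap_embA]

omit hA in
theorem reMap_mul_jA (π : ℕ → ℕ) (hπ : Tendsto π (ω' : Filter ℕ) (ω : Filter ℕ))
    (x : CentralAlgebra ω (Unitization ℂ A)) (a : A) :
    Reindex.reMap ω ω' (unitLift ιA) π hπ x.1 * jA ιA ω' a
      = Reindex.reMap ω ω' (unitLift ιA) π hπ (act (proj A ω x) a) := by
  rw [act_proj, map_mul, reMap_embA]

omit hA in
/-- Products of central elements with `A` come from sequences in `A`. -/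
theorem exists_seq_reMap (π : ℕ → ℕ) (hπ : Tendsto π (ω' : Filter ℕ) (ω : Filter ℕ))
    (x : CentralAlgebra ω (Unitization ℂ A)) (a : A) :
    ∃ Y : ℕ →ᵇ 𝓜(ℂ, C), cls ω' Y = Reindex.reMap ω ω' (unitLift ιA) π hπ x.1 * jA ιA ω' a ∧
      ∀ n, ∃ b, Y n = ((ιA b : C) : 𝓜(ℂ, C)) := by
  obtain ⟨u, hu⟩ := cls_surjective x.1
  refine ⟨seqMap (unitLift ιA) (reindex π (u * const ℕ (a : Unitization ℂ A))), ?_, fun n => ?_⟩
  · rw [← Reindex.reMap_cls _ π hπ, map_mul, hu, map_mul, ← reMap_embA ιA π hπ]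
    rfl
  · refine ⟨(u (π n) * (a : Unitization ℂ A)).snd, ?_⟩
    show unitLift ιA (u (π n) * (a : Unitization ℂ A)) = _
    rw [← unitLift_inr]
    congr 1
    ext <;> simp

end

end Vale.Agent.P095.All.CSide
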