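import Vale.Agent.P095.All.FA.Multiplier
import Vale.Agent.P095.All.NonUnital

/-!
# P095: the algebra generated by the products of commuting maps
-/

namespace Vale.Agent.P095.All

open Filter Topology
open scoped MultiplierAlgebra

noncomputable section

namespace Extend

variable {A B D : Type} [NonUnitalCStarAlgebra A] [NonUnitalCStarAlgebra B] [CStarAlgebra D]
  (j : A →⋆ₙₐ[ℂ] B) (Φ : D →⋆ₐ[ℂ] 𝓜(ℂ, B))

/-- The two commute. -/
def Commutes : Prop := ∀ d a, Φ d * (j a : 𝓜(ℂ, B)) = (j a : 𝓜(ℂ, B)) * Φ d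

/-- The product `Φ(d) j(a)`. -/
def elt (a : A) (d : D) : B := (Φ d).fst (j a)

variable {j Φ}

theorem snd_eq (hc : Commutes j Φ) (d : D) (a : A) : (Φ d).snd (j a) = elt j Φ a d := by
  refine coe_injective ?_
  show (((Φ d).snd (j a) : B) : 𝓜(ℂ, B)) = (((Φ d).fst (j a) : B) : 𝓜(ℂ, B))
  rw [← mul_coe_eq, ← coe_mul_eq, hc]

theorem elt_mul (hc : Commutes j Φ) (a a' : A) (d d' : D) :
    elt j Φ a d * elt j Φ a' d' = elt j Φ (a * a') (d * d') := by
  show (Φ d).fst (j a) * (Φ d').fst (j a') = (Φ (d * d')).fst (j (a * a'))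
  rw [← fst_mul_apply, ← (Φ d').central, snd_eq hc, elt, ← fst_mul_apply, map_mul j, map_mul Φ]
  rfl

theorem star_elt (hc : Commutes j Φ) (a : A) (d : D) :
    star (elt j Φ a d) = elt j Φ (star a) (star d) := by
  rw [← snd_eq hc (star d), map_star Φ, map_star j, DoubleCentralizer.star_snd, star_star]
  rfl

theorem fst_elt (a : A) (d d' : D) : (Φ d).fst (elt j Φ a d') = elt j Φ a (d * d') := by
  show (Φ d).fst ((Φ d').fst (j a)) = (Φ (d * d')).fst (j a)
  rw [map_mul]
  rfl

theorem snd_elt (hc : Commutes j Φ) (a : A) (d d' : D) :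
    (Φ d).snd (elt j Φ a d') = elt j Φ a (d' * d) := by
  rw [← snd_eq hc d', ← snd_eq hc (d' * d), map_mul]
  rfl

theorem elt_one (a : A) : elt j Φ a 1 = j a := by rw [elt, map_one]; rfl

variable (j Φ) in
/-- All the products. -/
def elts : Set B := Set.range fun p : A × D => elt j Φ p.1 p.2

theorem mul_mem_span (hc : Commutes j Φ) {x y : B} (hx : x ∈ Submodule.span ℂ (elts j Φ))
    (hy : y ∈ Submodule.span ℂ (elts j Φ)) : x * y ∈ Submodule.span ℂ (elts j Φ) := by
  induction hx using Submodule.span_induction with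
  | mem x hx =>
    induction hy using Submodule.span_induction with
    | mem y hy =>
      obtain ⟨⟨a, d⟩, rfl⟩ := hx
      obtain ⟨⟨b, d'⟩, rfl⟩ := hy
      exact Submodule.subset_span ⟨(a * b, d * d'), (elt_mul hc a b d d').symm⟩
    | zero => simp
    | add y z _ _ hy hz => rw [mul_add]; exact add_mem hy hz
    | smul c y _ hy => rw [mul_smul_comm]; exact Submodule.smul_mem _ c hy
  | zero => simp
  | add x z _ _ hx hz => rw [add_mul]; exact add_mem hx hz
  | smul c x _ hx => rw [smul_mul_assoc]; exact Submodule.smul_mem _ c hx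

theorem star_mem_span (hc : Commutes j Φ) {x : B} (hx : x ∈ Submodule.span ℂ (elts j Φ)) :
    star x ∈ Submodule.span ℂ (elts j Φ) := by
  induction hx using Submodule.span_induction with
  | mem x hx =>
    obtain ⟨⟨a, d⟩, rfl⟩ := hx
    exact Submodule.subset_span ⟨(star a, star d), (star_elt hc a d).symm⟩
  | zero => simp
  | add x z _ _ hx hz => rw [star_add]; exact add_mem hx hz
  | smul c x _ hx => rw [star_smul]; exact Submodule.smul_mem _ _ hx

/-- Their span. -/
def prodSpan (hc : Commutes j Φ) : NonUnitalStarSubalgebra ℂ B where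
  carrier := Submodule.span ℂ (elts j Φ)
  zero_mem' := zero_mem _
  add_mem' := add_mem
  smul_mem' c _ hx := Submodule.smul_mem _ c hx
  mul_mem' := mul_mem_span hc
  star_mem' := star_mem_span hc

/-- The algebra generated by the products. -/
def prodAlg (hc : Commutes j Φ) : NonUnitalStarSubalgebra ℂ B := (prodSpan hc).topologicalClosure

instance isClosed_prodAlg (hc : Commutes j Φ) : IsClosed (prodAlg hc : Set B) :=
  NonUnitalStarSubalgebra.isClosed_topologicalClosure _

/-- The products inside. -/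
def gen (hc : Commutes j Φ) (a : A) (d : D) : prodAlg hc :=
  ⟨elt j Φ a d, subset_closure (Submodule.subset_span ⟨(a, d), rfl⟩)⟩

theorem map_mem (hc : Commutes j Φ) (f : B →L[ℂ] B)
    (h : ∀ a d, ∃ a' d', f (elt j Φ a d) = elt j Φ a' d') {x : B} (hx : x ∈ prodAlg hc) :
    f x ∈ prodAlg hc := by
  refine closure_minimal ?_ ((isClosed_prodAlg hc).preimage f.continuous) hx
  intro x hx
  induction hx using Submodule.span_induction with
  | mem x hx =>
    obtain ⟨⟨a, d⟩, rfl⟩ := hx
    obtain ⟨a', d', e⟩ := h a d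
    show f (elt j Φ a d) ∈ prodAlg hc
    rw [e]
    exact (gen hc a' d').2
  | zero => simp
  | add u v _ _ hu hv => simpa using add_mem hu hv
  | smul r u _ hu => simpa using SMulMemClass.smul_mem r hu

/-- Restriction. -/
def restrict (hc : Commutes j Φ) (f : B →L[ℂ] B)
    (h : ∀ a d, ∃ a' d', f (elt j Φ a d) = elt j Φ a' d') : prodAlg hc →L[ℂ] prodAlg hc where
  toFun c := ⟨f c.1, map_mem hc f h c.2⟩
  map_add' c c' := Subtype.ext (map_add f c.1 c'.1)
  map_smul' r c := Subtype.ext (map_smul f r c.1)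
  cont := (f.continuous.comp continuous_subtype_val).subtype_mk _

theorem dense_gen (hc : Commutes j Φ) :
    Dense (Submodule.span ℂ (Set.range fun p : A × D => gen hc p.1 p.2) : Set (prodAlg hc)) := by
  intro c
  rw [closure_subtype]
  refine closure_mono ?_ (c.2 : c.1 ∈ closure (Submodule.span ℂ (elts j Φ) : Set _))
  intro x hx
  induction hx using Submodule.span_induction with
  | mem x hx =>
    obtain ⟨⟨a, d⟩, rfl⟩ := hx
    exact ⟨gen hc a d, Submodule.subset_span ⟨(a, d), rfl⟩, rfl⟩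
  | zero => exact ⟨0, zero_mem _, rfl⟩
  | add x y _ _ hx hy =>
    obtain ⟨u, hu, rfl⟩ := hx
    obtain ⟨v, hv, rfl⟩ := hy
    exact ⟨u + v, add_mem hu hv, rfl⟩
  | smul r x _ hx =>
    obtain ⟨u, hu, rfl⟩ := hx
    exact ⟨r • u, Submodule.smul_mem _ r hu, rfl⟩

theorem ext_gen (hc : Commutes j Φ) {f g : prodAlg hc →L[ℂ] prodAlg hc}
    (h : ∀ a d, f (gen hc a d) = g (gen hc a d)) : f = g :=
  ContinuousLinearMap.ext_on (dense_gen hc) (by rintro _ ⟨⟨a, d⟩, rfl⟩; exact h a d)

/-- `D` acts by multipliers. -/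
def multiplier (hc : Commutes j Φ) (d : D) : 𝓜(ℂ, prodAlg hc) where
  toProd := (restrict hc (Φ d).fst fun a d' => ⟨a, _, fst_elt a d d'⟩,
    restrict hc (Φ d).snd fun a d' => ⟨a, _, snd_elt hc a d d'⟩)
  central x y := Subtype.ext ((Φ d).central x.1 y.1)

theorem multiplier_fst (hc : Commutes j Φ) (d : D) (c : prodAlg hc) :
    ((multiplier hc d).fst c : B) = (Φ d).fst c.1 := rfl

theorem multiplier_snd (hc : Commutes j Φ) (d : D) (c : prodAlg hc) :
    ((multiplier hc d).snd c : B) = (Φ d).snd c.1 := rfl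

theorem multiplier_ext (hc : Commutes j Φ) {M N : 𝓜(ℂ, prodAlg hc)}
    (h₁ : ∀ c, (M.fst c : B) = N.fst c) (h₂ : ∀ c, (M.snd c : B) = N.snd c) : M = N :=
  DoubleCentralizer.ext _ _ _ _ (Prod.ext (ContinuousLinearMap.ext fun c => Subtype.ext (h₁ c))
    (ContinuousLinearMap.ext fun c => Subtype.ext (h₂ c)))

/-- `D` among the multipliers. -/
def iotaD (hc : Commutes j Φ) : D →⋆ₐ[ℂ] 𝓜(ℂ, prodAlg hc) where
  toFun := multiplier hc
  map_one' := by
    apply multiplier_ext hc <;> intro c <;> simp [multiplier_fst, multiplier_snd]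
  map_zero' := by
    apply multiplier_ext hc <;> intro c <;> simp [multiplier_fst, multiplier_snd]
  map_mul' x y := by
    apply multiplier_ext hc <;> intro c <;> simp [multiplier_fst, multiplier_snd]
  map_add' x y := by
    apply multiplier_ext hc <;> intro c <;> simp [multiplier_fst, multiplier_snd]
  commutes' r := by
    apply multiplier_ext hc <;> intro c <;>
      simp [multiplier_fst, multiplier_snd, Algebra.algebraMap_eq_smul_one, map_smul]
  map_star' x := by
    apply multiplier_ext hc <;> intro c <;> simp [multiplier_fst, multiplier_snd, map_star]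

/-- `A` inside. -/
def iotaA (hc : Commutes j Φ) : A →⋆ₙₐ[ℂ] prodAlg hc :=
  NonUnitalStarAlgHom.codRestrict j (prodAlg hc) fun a => elt_one (j := j) (Φ := Φ) a ▸ (gen hc a 1).2

theorem isTensorGen (hc : Commutes j Φ) (hj : Function.Injective j) :
    IsTensorGen (iotaA hc) (iotaD hc) := by
  refine ⟨fun a b h => hj (congrArg Subtype.val h), fun a d => ?_, ?_⟩
  · show multiplier hc d * ((iotaA hc a : prodAlg hc) : 𝓜(ℂ, prodAlg hc))
      = ((iotaA hc a : prodAlg hc) : 𝓜(ℂ, prodAlg hc)) * multiplier hc d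
    rw [mul_coe_eq, coe_mul_eq]
    exact congrArg (DoubleCentralizer.coe ℂ) (Subtype.ext (snd_eq hc d a).symm)
  · exact dense_gen hc

variable {G : Type} [Group G] {α : G → A ≃⋆ₐ[ℂ] A}

/-- Star homomorphisms of `B` permuting the products as `α` does act on the algebra. -/
theorem exists_action (hc : Commutes j Φ) (hα : ∀ g h a, α (g * h) a = α g (α h a))
    (T : G → B →⋆ₙₐ[ℂ] B) (hT : ∀ g a d, T g (elt j Φ a d) = elt j Φ (α g a) d) :
    ∃ γ : G → prodAlg hc ≃⋆ₐ[ℂ] prodAlg hc, IsExtension α (iotaA hc) (iotaD hc) γ := by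
  have hone : ∀ a, α 1 a = a := fun a =>
    EquivLike.injective (α 1) (by rw [← hα, mul_one])
  let L : G → B →L[ℂ] B := fun g =>
    { toFun := T g
      map_add' := map_add _
      map_smul' := fun r x => map_smul (T g) r x
      cont := AddMonoidHomClass.continuous_of_bound (T g) 1 fun y => by
        simpa using NonUnitalStarAlgHom.norm_apply_le (T g) y }
  have hL : ∀ g a d, ∃ a' d', L g (elt j Φ a d) = elt j Φ a' d' :=
    fun g a d => ⟨α g a, d, hT g a d⟩
  let R : G → prodAlg hc →L[ℂ] prodAlg hc := fun g => restrict hc (L g) (hL g)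
  have hRg : ∀ g a d, R g (gen hc a d) = gen hc (α g a) d := fun g a d => Subtype.ext (hT g a d)
  have hmul : ∀ g h, R (g * h) = (R g).comp (R h) := fun g h => ext_gen hc fun a d => by
    rw [hRg, ContinuousLinearMap.comp_apply, hRg, hRg, hα]
  have hid : R 1 = ContinuousLinearMap.id ℂ _ := ext_gen hc fun a d => by
    rw [hRg, hone]; rfl
  let H : G → prodAlg hc →⋆ₙₐ[ℂ] prodAlg hc := fun g =>
    NonUnitalStarAlgHom.codRestrict ((T g).comp (NonUnitalStarSubalgebraClass.subtype (prodAlg hc)))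
      (prodAlg hc) fun c => map_mem hc (L g) (hL g) c.2
  have hH : ∀ g c, H g c = R g c := fun g c => rfl
  have hinv : ∀ g h : G, g * h = 1 → ∀ c, H g (H h c) = c := fun g h e c => by
    rw [hH, hH, ← ContinuousLinearMap.comp_apply, ← hmul, e, hid]; rfl
  refine ⟨fun g => StarAlgEquiv.ofBijective (H g)
    ⟨fun x y h => by
      have := congrArg (H g⁻¹) h
      rwa [hinv _ _ (inv_mul_cancel g), hinv _ _ (inv_mul_cancel g)] at this,
    fun y => ⟨H g⁻¹ y, hinv _ _ (mul_inv_cancel g) y⟩⟩, ⟨fun g h c => ?_, fun g a => ?_,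
    fun g d c => ?_⟩⟩
  · show R (g * h) c = R g (R h c)
    rw [hmul]; rfl
  · refine Subtype.ext ?_
    show T g (j a) = j (α g a)
    rw [← elt_one (j := j) (Φ := Φ) a, hT, elt_one]
  · refine congrArg (fun F : prodAlg hc →L[ℂ] prodAlg hc => F c) (ext_gen hc
      (f := (R g).comp (multiplier hc d).fst) (g := (multiplier hc d).fst.comp (R g)) fun a d' => ?_)
    refine Subtype.ext ?_
    show T g ((Φ d).fst (elt j Φ a d')) = (Φ d).fst (T g (elt j Φ a d'))
    rw [fst_elt, hT, hT, fst_elt]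

end Extend

end

end Vale.Agent.P095.All
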