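import Vale.Agent.P095.All.FA.Basic
import Vale.Agent.P095.All.FA.ProdAlg
import Vale.Agent.P095.All.FA.Props.Induced
import Vale.Agent.P095.All.FA.Targets

/-!
# P095: a fixed map into `F_ω(A)` gives an extension
-/

namespace Vale.Agent.P095.All

open Filter Topology Vale.Agent.P101.KR Vale.Agent.P095.Equiv
open scoped MultiplierAlgebra

noncomputable section

variable {A : Type} [NonUnitalCStarAlgebra A] {ω : Ultrafilter ℕ}

theorem embA_injective : Function.Injective (embA A ω) := fun a b h => by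
  have e2 := cls_eq_iff.1 (h : cls ω (BoundedContinuousFunction.const ℕ (a : Unitization ℂ A)) =
    cls ω (BoundedContinuousFunction.const ℕ (b : Unitization ℂ A)))
  exact Unitization.inr_injective
    (sub_eq_zero.1 (norm_eq_zero.1 (tendsto_nhds_unique tendsto_const_nhds e2)))

theorem omegaMap_mem_her (e : A ≃⋆ₐ[ℂ] A) {x : AOmega (Unitization ℂ A) ω} (hx : x ∈ her A ω) :
    omegaMap ω (Unitization.starMap (e : A →⋆ₙₐ[ℂ] A)) x ∈ her A ω := by
  set T := omegaMap ω (Unitization.starMap (e : A →⋆ₙₐ[ℂ] A))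
  refine closure_minimal ?_ ((isClosed_her (A := A) (ω := ω)).preimage
    (continuous_nonUnitalHom T.toNonUnitalStarAlgHom)) hx
  intro y hy
  have hle : NonUnitalStarAlgebra.adjoin ℂ (herGen A ω) ≤
      (her A ω).comap T.toNonUnitalStarAlgHom := by
    refine NonUnitalStarAlgebra.adjoin_le ?_
    rintro _ ⟨⟨a, z, b⟩, rfl⟩
    refine subset_closure (NonUnitalStarAlgebra.subset_adjoin ℂ _ ⟨(e a, T z, e b), ?_⟩)
    show embA A ω (e a) * T z * embA A ω (e b) = T (embA A ω a * z * embA A ω b)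
    rw [map_mul, map_mul, omegaMap_embA, omegaMap_embA]
  exact hle hy

/-- The map of `her A ω` induced by an automorphism of `A`. -/
def herMap (e : A ≃⋆ₐ[ℂ] A) : her A ω →⋆ₙₐ[ℂ] her A ω :=
  NonUnitalStarAlgHom.codRestrict
    ((omegaMap ω (Unitization.starMap (e : A →⋆ₙₐ[ℂ] A))).toNonUnitalStarAlgHom.comp
      (NonUnitalStarSubalgebraClass.subtype (her A ω)))
    (her A ω) fun x => omegaMap_mem_her e x.2

theorem existsFA_of : ExistsFATarget := by
  intro G _ _ A D _ _ _ ω hω α hα β hβ ψ hψ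
  let Φ : D →⋆ₐ[ℂ] 𝓜(ℂ, her A ω) := (FAlg A ω).subtype.comp ψ
  have hc : Extend.Commutes (embHer A ω) Φ := fun d a => mul_embHer (ψ d) a
  obtain ⟨γ, hγ⟩ := Extend.exists_action hc hα (fun g => herMap (α g)) fun g a d => Subtype.ext (by
    show omegaMap ω (Unitization.starMap (α g : A →⋆ₙₐ[ℂ] A)) (act (ψ d) a) = act (ψ d) (α g a)
    rw [omegaMap_act hβ, hψ])
  refine ⟨Extend.prodAlg hc, inferInstance, Extend.iotaA hc, Extend.iotaD hc, γ,
    Extend.isTensorGen hc (fun a b h => embA_injective (congrArg Subtype.val h)), hγ⟩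

end

end Vale.Agent.P095.All
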