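import Mathlib

/-!
# P095: products of factors `1 + (X - 1) F`, for idempotents `F`
-/

namespace Vale.Agent.P095.All.Flip

open Polynomial

noncomputable section

variable {R : Type*} [Ring R]

/-- The factor of one idempotent. -/
def factor (F : R) : R[X] := 1 + (X - 1) * C F

/-- The product of the factors of a list. -/
def listPoly (l : List R) : R[X] := (l.map factor).prod

/-- The product that inverts `listPoly l` up to a power of `X`. -/
def dualPoly (l : List R) : R[X] := listPoly (l.map fun F => 1 - F).reverse

theorem listPoly_nil : listPoly ([] : List R) = 1 := rfl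

theorem listPoly_cons (F : R) (l : List R) : listPoly (F :: l) = factor F * listPoly l := by
  simp [listPoly]

theorem listPoly_append (l m : List R) : listPoly (l ++ m) = listPoly l * listPoly m := by
  simp [listPoly]

theorem dualPoly_cons (F : R) (l : List R) : dualPoly (F :: l) = dualPoly l * factor (1 - F) := by
  simp [dualPoly, listPoly]

theorem map_listPoly {S : Type*} [Ring S] (f : R →+* S) (l : List R) :
    (listPoly l).map f = listPoly (l.map f) := by
  induction l with
  | nil => simp [listPoly]
  | cons F l ih => rw [List.map_cons, listPoly_cons, listPoly_cons, Polynomial.map_mul, ih]; simp [factor]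

theorem commute_X_sub_one (p : R[X]) : Commute (X - 1) p :=
  (commute_X p).sub_left (Commute.one_left p)

theorem factor_mul_compl {F : R} (hF : F * F = F) :
    factor (1 - F) * factor F = X ∧ factor F * factor (1 - F) = X := by
  have hc := commute_X_sub_one (C F)
  have hc' := commute_X_sub_one (C (1 - F))
  have h1 : C (1 - F) * C F = 0 := by rw [← C_mul, sub_mul, one_mul, hF, sub_self, C_0]
  have h2 : C F * C (1 - F) = 0 := by rw [← C_mul, mul_sub, mul_one, hF, sub_self, C_0]
  have h3 : C (1 - F) + C F = 1 := by rw [← C_add, sub_add_cancel, C_1]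
  constructor
  · calc factor (1 - F) * factor F
        = 1 + (X - 1) * (C (1 - F) + C F) + (X - 1) * ((C (1 - F) * (X - 1)) * C F) := by
          simp only [factor]; noncomm_ring
      _ = X := by rw [← hc'.eq, mul_assoc (X - 1) (C (1 - F)), h1, h3]; noncomm_ring
  · calc factor F * factor (1 - F)
        = 1 + (X - 1) * (C (1 - F) + C F) + (X - 1) * ((C F * (X - 1)) * C (1 - F)) := by
          simp only [factor]; noncomm_ring
      _ = X := by rw [← hc.eq, mul_assoc (X - 1) (C F), h2, h3]; noncomm_ring

theorem dualPoly_mul {l : List R} (hl : ∀ F ∈ l, F * F = F) :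
    dualPoly l * listPoly l = X ^ l.length ∧ listPoly l * dualPoly l = X ^ l.length := by
  induction l with
  | nil => simp [dualPoly, listPoly]
  | cons F l ih =>
    obtain ⟨h1, h2⟩ := ih fun G hG => hl G (List.mem_cons_of_mem _ hG)
    obtain ⟨f1, f2⟩ := factor_mul_compl (hl F List.mem_cons_self)
    rw [listPoly_cons, dualPoly_cons, List.length_cons]
    constructor
    · rw [mul_assoc, ← mul_assoc (factor (1 - F)), f1, X_mul, ← mul_assoc, h1, pow_succ]
    · rw [mul_assoc, ← mul_assoc (listPoly l), h2, X_pow_mul, ← mul_assoc, f2, ← pow_succ']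

theorem coeff_X_sub_one_mul_zero (p : R[X]) : ((X - 1) * p).coeff 0 = - p.coeff 0 := by
  simp [sub_mul]

theorem coeff_X_sub_one_mul_succ (p : R[X]) (k : ℕ) :
    ((X - 1) * p).coeff (k + 1) = p.coeff k - p.coeff (k + 1) := by
  simp [sub_mul]

theorem coeff_factor_mul_zero (F : R) (p : R[X]) :
    (factor F * p).coeff 0 = (1 - F) * p.coeff 0 := by
  rw [factor, add_mul, one_mul, mul_assoc, coeff_add, coeff_X_sub_one_mul_zero, coeff_C_mul]
  noncomm_ring

theorem coeff_factor_mul_succ (F : R) (p : R[X]) (k : ℕ) :
    (factor F * p).coeff (k + 1) = (1 - F) * p.coeff (k + 1) + F * p.coeff k := by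
  rw [factor, add_mul, one_mul, mul_assoc, coeff_add, coeff_X_sub_one_mul_succ, coeff_C_mul,
    coeff_C_mul]
  noncomm_ring

theorem coeff_mul_factor_zero (F : R) (p : R[X]) :
    (p * factor F).coeff 0 = p.coeff 0 * (1 - F) := by
  rw [factor, mul_add, mul_one, ← mul_assoc, ← (commute_X_sub_one p).eq, mul_assoc, coeff_add,
    coeff_X_sub_one_mul_zero, coeff_mul_C]
  noncomm_ring

theorem coeff_mul_factor_succ (F : R) (p : R[X]) (k : ℕ) :
    (p * factor F).coeff (k + 1) = p.coeff (k + 1) * (1 - F) + p.coeff k * F := by
  rw [factor, mul_add, mul_one, ← mul_assoc, ← (commute_X_sub_one p).eq, mul_assoc, coeff_add,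
    coeff_X_sub_one_mul_succ, coeff_mul_C, coeff_mul_C]
  noncomm_ring

theorem coeff_listPoly_of_lt (l : List R) {k : ℕ} (hk : l.length < k) :
    (listPoly l).coeff k = 0 := by
  induction l generalizing k with
  | nil => rw [listPoly_nil, coeff_one, if_neg]; simp at hk; omega
  | cons F l ih =>
    obtain ⟨k, rfl⟩ := Nat.exists_eq_succ_of_ne_zero (show k ≠ 0 by simp at hk; omega)
    simp only [List.length_cons] at hk
    rw [listPoly_cons, coeff_factor_mul_succ, ih (by omega), ih (by omega), mul_zero, mul_zero,
      add_zero]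

theorem coeff_dualPoly_of_lt (l : List R) {k : ℕ} (hk : l.length < k) :
    (dualPoly l).coeff k = 0 :=
  coeff_listPoly_of_lt _ (by simpa using hk)

theorem star_coeff_listPoly [StarRing R] {l : List R} (hl : ∀ F ∈ l, star F = F) :
    ∀ k j, k + j = l.length → (dualPoly l).coeff k = star ((listPoly l).coeff j) := by
  induction l with
  | nil =>
    intro k j h
    simp only [List.length_nil] at h
    obtain ⟨rfl, rfl⟩ : k = 0 ∧ j = 0 := by omega
    simp [dualPoly, listPoly]
  | cons F l ih =>
    have hF : star F = F := hl F List.mem_cons_self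
    have hl' := ih fun G hG => hl G (List.mem_cons_of_mem _ hG)
    intro k j h
    simp only [List.length_cons] at h
    rw [listPoly_cons, dualPoly_cons]
    rcases k with - | k
    · obtain rfl : j = l.length + 1 := by omega
      rw [coeff_mul_factor_zero, coeff_factor_mul_succ, coeff_listPoly_of_lt l (Nat.lt_succ_self _),
        hl' 0 l.length (by omega), mul_zero, zero_add, star_mul, hF, sub_sub_cancel]
    · rw [coeff_mul_factor_succ, sub_sub_cancel]
      rcases j with - | j
      · obtain rfl : k = l.length := by omega
        rw [coeff_factor_mul_zero, coeff_dualPoly_of_lt l (Nat.lt_succ_self _),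
          hl' l.length 0 (by omega), zero_mul, zero_add, star_mul, star_sub, star_one, hF]
      · rw [coeff_factor_mul_succ, hl' (k + 1) j (by omega), hl' k (j + 1) (by omega), star_add,
          star_mul, star_mul, star_sub, star_one, hF, add_comm]

theorem listPoly_mul_C {l : List R} {y : R} (h : ∀ F ∈ l, F * y = 0 ∧ y * F = 0) :
    listPoly l * C y = C y ∧ C y * listPoly l = C y := by
  induction l with
  | nil => simp [listPoly]
  | cons F l ih =>
    obtain ⟨h1, h2⟩ := ih fun G hG => h G (List.mem_cons_of_mem _ hG)
    obtain ⟨e1, e2⟩ := h F List.mem_cons_self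
    have f1 : factor F * C y = C y := by
      rw [factor, add_mul, one_mul, mul_assoc, ← C_mul, e1, C_0, mul_zero, add_zero]
    have f2 : C y * factor F = C y := by
      rw [factor, mul_add, mul_one, ← mul_assoc, ← (commute_X_sub_one (C y)).eq, mul_assoc,
        ← C_mul, e2, C_0, mul_zero, add_zero]
    rw [listPoly_cons]
    exact ⟨by rw [mul_assoc, h1, f1], by rw [← mul_assoc, f2, h2]⟩

theorem coeff_sub_one_mul {p : R[X]} {y : R} (h : p * C y = C y ∧ C y * p = C y) (k : ℕ) :
    (p - 1).coeff k * y = 0 ∧ y * (p - 1).coeff k = 0 := by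
  rw [← coeff_mul_C, ← coeff_C_mul, sub_mul, mul_sub, h.1, h.2]
  simp

theorem prod_orth {S : Type*} [Ring S] {ι : Type*} (l : List ι) (hl : l.Nodup) (e : ι → S) (r : S)
    (horth : ∀ i j, i ≠ j → e i * e j = 0) (hr : ∀ i, Commute (e i) r) :
    (l.map fun i => 1 + e i * r).prod = 1 + (l.map e).sum * r := by
  induction l with
  | nil => simp
  | cons i l ih =>
    have hn := List.nodup_cons.1 hl
    have h0 : e i * (l.map e).sum = 0 := by
      rw [← List.sum_map_mul_left]
      refine List.sum_eq_zero fun x hx => ?_
      obtain ⟨j, hj, rfl⟩ := List.mem_map.1 hx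
      exact horth i j fun h => hn.1 (h ▸ hj)
    rw [List.map_cons, List.prod_cons, List.map_cons, List.sum_cons, ih hn.2]
    calc (1 + e i * r) * (1 + (l.map e).sum * r)
        = 1 + (e i + (l.map e).sum) * r + e i * (r * (l.map e).sum) * r := by noncomm_ring
      _ = _ := by
        have hc : Commute r (l.map e).sum := by
          refine Commute.list_sum_right _ _ fun x hx => ?_
          obtain ⟨j, -, rfl⟩ := List.mem_map.1 hx
          exact (hr j).symm
        rw [hc.eq, ← mul_assoc (e i), h0]
        noncomm_ring

theorem prod_inner {S : Type*} [Ring S] {ι : Type*} (l : List ι) (e : S) (q : ι → S)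
    (he : e * e = e) (hq : ∀ i, Commute e (q i)) :
    (l.map fun i => 1 + e * q i).prod = 1 + e * ((l.map fun i => 1 + q i).prod - 1) := by
  induction l with
  | nil => simp
  | cons i l ih =>
    rw [List.map_cons, List.prod_cons, List.map_cons, List.prod_cons, ih]
    set P := (l.map fun i => 1 + q i).prod
    calc (1 + e * q i) * (1 + e * (P - 1))
        = 1 + e * q i + e * (P - 1) + e * (q i * e) * (P - 1) := by noncomm_ring
      _ = 1 + e * ((1 + q i) * P - 1) := by
        rw [← (hq i).eq, ← mul_assoc e, he]
        noncomm_ring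

theorem listPoly_flatMap {ι : Type*} (l : List ι) (f : ι → List R) :
    listPoly (l.flatMap f) = (l.map fun i => listPoly (f i)).prod := by
  induction l with
  | nil => simp [listPoly]
  | cons i l ih => rw [List.flatMap_cons, listPoly_append, List.map_cons, List.prod_cons, ih]

/-- A decomposition of the unit against a constant factor. -/
theorem listPoly_orth {ι : Type*} [Fintype ι] (e : ι → R) (g : R)
    (horth : ∀ i j, i ≠ j → e i * e j = 0) (hsum : ∑ i, e i = 1) (hg : ∀ i, Commute (e i) g) :
    listPoly (Finset.univ.toList.map fun i => e i * g) = factor g := by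
  have h : ∀ i, factor (e i * g) = 1 + C (e i) * ((X - 1) * C g) := fun i => by
    rw [factor, C_mul, ← mul_assoc, ← mul_assoc, (commute_X_sub_one (C (e i))).eq]
  rw [listPoly, List.map_map, show factor ∘ (fun i => e i * g) = fun i => 1 + C (e i) * ((X - 1) * C g)
    from funext h, prod_orth _ (Finset.nodup_toList _) _ _
      (fun i j hij => by rw [← C_mul, horth i j hij, C_0])
      (fun i => ((commute_X_sub_one _).symm).mul_right (by
        rw [Commute, SemiconjBy, ← C_mul, ← C_mul, (hg i).eq])),
    Finset.sum_map_toList, ← map_sum, hsum, C_1, one_mul]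
  rfl

/-- A decomposition of the unit, outside. -/
theorem listPoly_blocks {ι : Type*} [Fintype ι] {κ : Type*} (l : List κ) (e : ι → R) (g : κ → R)
    (hidem : ∀ i, e i * e i = e i) (horth : ∀ i j, i ≠ j → e i * e j = 0) (hsum : ∑ i, e i = 1)
    (hg : ∀ i j, Commute (e i) (g j)) :
    listPoly (Finset.univ.toList.flatMap fun i => l.map fun j => e i * g j)
      = listPoly (l.map g) := by
  have hC : ∀ i j, Commute (C (e i)) (C (g j)) := fun i j => by
    rw [Commute, SemiconjBy, ← C_mul, ← C_mul, (hg i j).eq]
  have h : ∀ i j, factor (e i * g j) = 1 + C (e i) * ((X - 1) * C (g j)) := fun i j => by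
    rw [factor, C_mul, ← mul_assoc, ← mul_assoc, (commute_X_sub_one (C (e i))).eq]
  set r : R[X] := listPoly (l.map g) - 1 with hr
  have hin : ∀ i, listPoly (l.map fun j => e i * g j) = 1 + C (e i) * r := fun i => by
    rw [listPoly, List.map_map, show factor ∘ (fun j => e i * g j)
      = fun j => 1 + C (e i) * ((X - 1) * C (g j)) from funext (h i),
      prod_inner _ _ _ (by rw [← C_mul, hidem])
        (fun j => ((commute_X_sub_one _).symm).mul_right (hC i j)), hr, listPoly, List.map_map]
    rfl
  have hcr : ∀ i, Commute (C (e i)) r := fun i => by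
    refine Commute.sub_right (Commute.list_prod_right _ _ fun x hx => ?_) (Commute.one_right _)
    obtain ⟨y, hy, rfl⟩ := List.mem_map.1 hx
    obtain ⟨j, -, rfl⟩ := List.mem_map.1 hy
    exact (Commute.one_right _).add_right (((commute_X_sub_one _).symm).mul_right (hC i j))
  rw [listPoly_flatMap, funext hin, prod_orth _ (Finset.nodup_toList _) _ r
    (fun i j hij => by rw [← C_mul, horth i j hij, C_0]) hcr, Finset.sum_map_toList, ← map_sum,
    hsum, C_1, one_mul, hr]
  abel

end

end Vale.Agent.P095.All.Flip
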