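import Vale.Agent.P095.All.FA.Factors
import Vale.Agent.P101.KR.DropAlg

/-!
# P095: commutators that commute with a unital copy of `Z_{n,n+1}` are joined to the unit

A unitary `a` commuting with `Z_{n,n+1}` is joined to one supported in a corner by products of
rank one rotations; two orthogonal corners give a path from a commutator to `1`.
-/

namespace Vale.Agent.P095.All.Flip

open Polynomial unitInterval Vale.Agent.P101.KR
open scoped BoundedContinuousFunction ComplexOrder

noncomputable section

section Vectors

variable {ι : Type*} [Fintype ι] [DecidableEq ι]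

/-- The entries of the segment from the basis vector at `i` to the one at `i₀`. -/
def seg (i i₀ : ι) (u : ℝ) (k : ι) : ℝ :=
  (if k = i then 1 else 0) * (1 - u) + (if k = i₀ then 1 else 0) * u

/-- Its squared length. -/
def segSq (i i₀ : ι) (u : ℝ) : ℝ := ∑ k, seg i i₀ u k ^ 2

theorem segSq_pos (i i₀ : ι) (u : ℝ) : 0 < segSq i i₀ u := by
  have hle : ∀ k, seg i i₀ u k ^ 2 ≤ segSq i i₀ u := fun k =>
    Finset.single_le_sum (f := fun k => seg i i₀ u k ^ 2) (fun _ _ => sq_nonneg _) (Finset.mem_univ k)
  by_cases h : i = i₀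
  · have := hle i
    simp [seg, h] at this
    subst h
    linarith
  · have h1 := hle i
    have h2 := hle i₀
    simp [seg, h, Ne.symm h] at h1 h2
    nlinarith [sq_nonneg (1 - u), sq_nonneg u, sq_nonneg (1 - 2 * u)]

/-- The projection onto the segment. -/
def segProj (i i₀ : ι) (u : ℝ) : Matrix ι ι ℂ :=
  Matrix.of fun k l => ((seg i i₀ u k * seg i i₀ u l / segSq i i₀ u : ℝ) : ℂ)

theorem segProj_idem (i i₀ : ι) (u : ℝ) : segProj i i₀ u * segProj i i₀ u = segProj i i₀ u := by
  ext k l
  simp only [segProj, Matrix.mul_apply, Matrix.of_apply, ← Complex.ofReal_mul, ← Complex.ofReal_sum]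
  congr 1
  have h := (segSq_pos i i₀ u).ne'
  have e : ∀ m, seg i i₀ u k * seg i i₀ u m / segSq i i₀ u *
      (seg i i₀ u m * seg i i₀ u l / segSq i i₀ u)
      = seg i i₀ u k * seg i i₀ u l / segSq i i₀ u ^ 2 * seg i i₀ u m ^ 2 := fun m => by
    field_simp
  rw [Finset.sum_congr rfl fun m _ => e m, ← Finset.mul_sum, ← segSq]
  field_simp

theorem star_segProj (i i₀ : ι) (u : ℝ) : star (segProj i i₀ u) = segProj i i₀ u := by
  ext k l
  simp only [segProj, Matrix.star_apply, Matrix.of_apply, Complex.star_def, Complex.conj_ofReal,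
    mul_comm (seg i i₀ u l)]

theorem segProj_zero (i i₀ : ι) : segProj i i₀ 0 = Matrix.single i i 1 := by
  have hs : ∀ k, seg i i₀ 0 k = if k = i then 1 else 0 := fun k => by
    simp only [seg, sub_zero, mul_one, mul_zero, add_zero]
  have h : segSq i i₀ 0 = 1 := by
    rw [segSq, Finset.sum_eq_single i (fun k _ hk => by rw [hs, if_neg hk]; norm_num)
      (fun hk => absurd (Finset.mem_univ i) hk), hs, if_pos rfl, one_pow]
  ext k l
  rw [segProj, Matrix.of_apply, h, Matrix.single_apply, hs, hs]
  by_cases hk : k = i
  · by_cases hl : l = i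
    · rw [if_pos hk, if_pos hl, if_pos ⟨hk.symm, hl.symm⟩]; simp
    · rw [if_pos hk, if_neg hl, if_neg (fun h => hl h.2.symm)]; simp
  · rw [if_neg hk, if_neg (fun h : i = k ∧ i = l => hk h.1.symm)]; simp

theorem segProj_one (i i₀ : ι) : segProj i i₀ 1 = Matrix.single i₀ i₀ 1 := by
  have hs : ∀ k, seg i i₀ 1 k = if k = i₀ then 1 else 0 := fun k => by
    simp only [seg, sub_self, mul_one, mul_zero, zero_add]
  have h : segSq i i₀ 1 = 1 := by
    rw [segSq, Finset.sum_eq_single i₀ (fun k _ hk => by rw [hs, if_neg hk]; norm_num)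
      (fun hk => absurd (Finset.mem_univ i₀) hk), hs, if_pos rfl, one_pow]
  ext k l
  rw [segProj, Matrix.of_apply, h, Matrix.single_apply, hs, hs]
  by_cases hk : k = i₀
  · by_cases hl : l = i₀
    · rw [if_pos hk, if_pos hl, if_pos ⟨hk.symm, hl.symm⟩]; simp
    · rw [if_pos hk, if_neg hl, if_neg (fun h => hl h.2.symm)]; simp
  · rw [if_neg hk, if_neg (fun h : i₀ = k ∧ i₀ = l => hk h.1.symm)]; simp

theorem continuous_segProj (i i₀ : ι) : Continuous (segProj i i₀) := by
  refine continuous_pi fun k => continuous_pi fun l => ?_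
  refine Complex.continuous_ofReal.comp (Continuous.div ?_ ?_ fun u => (segSq_pos i i₀ u).ne')
  · simp only [seg]; fun_prop
  · unfold segSq seg; fun_prop

end Vectors

variable {n : ℕ}

/-- `Mₙ` in the fibre. -/
def smallHom : Matrix (Fin n) (Fin n) ℂ →+* DropFibre n where
  toFun := embSmall
  map_one' := by simpa using embSmall_algebraMap (n := n) 1
  map_mul' x y := (embSmall_mul x y).symm
  map_zero' := by ext p q; simp
  map_add' x y := by ext p q; simp; split_ifs <;> simp

/-- `M_{n+1}` in the fibre. -/
def largeHom : Matrix (Option (Fin n)) (Option (Fin n)) ℂ →+* DropFibre n where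
  toFun := embLarge
  map_one' := by simpa using embLarge_algebraMap (n := n) 1
  map_mul' x y := (embLarge_mul x y).symm
  map_zero' := by ext p q; simp
  map_add' x y := by ext p q; simp; split_ifs <;> simp

theorem large_small_apply (y : Matrix (Option (Fin n)) (Option (Fin n)) ℂ)
    (x : Matrix (Fin n) (Fin n) ℂ) (p q : DropIndex n) :
    (largeHom y * smallHom x) p q = y p.1 q.1 * x p.2 q.2 ∧
      (smallHom x * largeHom y) p q = y p.1 q.1 * x p.2 q.2 := by
  constructor <;> rw [CStarMatrix.mul_apply, Fintype.sum_prod_type] <;>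
    simp [largeHom, smallHom, mul_comm]

theorem commute_large_small (y : Matrix (Option (Fin n)) (Option (Fin n)) ℂ)
    (x : Matrix (Fin n) (Fin n) ℂ) : Commute (largeHom y) (smallHom x) := by
  ext p q
  rw [(large_small_apply y x p q).1, (large_small_apply y x p q).2]

/-- The target of a corner. -/
abbrev Corner (n : ℕ) : Type := Option (Fin n) × Fin n

/-- One rotating projection, at time `t` and position `s`. -/
def rotVal (c : Corner n) (ij : Corner n) (t s : ℝ) : DropFibre n :=
  largeHom (segProj ij.1 c.1 (t * min 1 (2 * s))) *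
    smallHom (segProj ij.2 c.2 (t * min 1 (2 - 2 * s)))

theorem continuous_rotVal (c ij : Corner n) :
    Continuous fun p : ℝ × ℝ => rotVal c ij p.1 p.2 := by
  refine continuous_of_entries fun p q => ?_
  simp only [rotVal, (large_small_apply _ _ p q).1]
  refine Continuous.mul ?_ ?_ <;>
    exact ((continuous_apply_apply _ _).comp (continuous_segProj _ _)).comp (by fun_prop)

/-- The projection as an element of the algebra of paths. -/
def rot (c ij : Corner n) (t : ℝ) : I →ᵇ DropFibre n :=
  BoundedContinuousFunction.mkOfCompact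
    (⟨fun s => rotVal c ij t s, Continuous.comp (g := fun p : ℝ × ℝ => rotVal c ij p.1 p.2) (f := fun s : I => (t, (s : ℝ)))
      (continuous_rotVal c ij) (continuous_const.prodMk continuous_subtype_val)⟩ : C(I, DropFibre n))

theorem rot_apply (c ij : Corner n) (t : ℝ) (s : I) : rot c ij t s = rotVal c ij t s := rfl

theorem continuous_rot (c ij : Corner n) : Continuous (rot c ij) := by
  let f : C(ℝ × I, DropFibre n) :=
    ⟨fun p => rotVal c ij p.1 p.2, Continuous.comp (g := fun p : ℝ × ℝ => rotVal c ij p.1 p.2)
      (f := fun p : ℝ × I => (p.1, (p.2 : ℝ))) (continuous_rotVal c ij)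
      (continuous_fst.prodMk (continuous_subtype_val.comp continuous_snd))⟩
  exact (ContinuousMap.linearIsometryBoundedOfCompact I (DropFibre n) ℂ).continuous.comp
    f.curry.continuous

theorem rot_idem (c ij : Corner n) (t : ℝ) : rot c ij t * rot c ij t = rot c ij t := by
  ext s : 1
  simp only [BoundedContinuousFunction.coe_mul, Pi.mul_apply, rot_apply, rotVal]
  rw [(commute_large_small _ _).symm.mul_mul_mul_comm, ← map_mul, ← map_mul, segProj_idem,
    segProj_idem]

theorem star_rot (c ij : Corner n) (t : ℝ) : star (rot c ij t) = rot c ij t := by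
  ext s : 1
  simp only [BoundedContinuousFunction.star_apply, rot_apply, rotVal, star_mul]
  show star (embSmall _) * star (embLarge _) = _
  rw [star_embSmall, star_embLarge, star_segProj, star_segProj]
  exact (commute_large_small _ _).symm.eq

/-- All the projections, in lexicographic order. -/
def rots (c : Corner n) (t : ℝ) : List (I →ᵇ DropFibre n) :=
  (Finset.univ : Finset (Option (Fin n))).toList.flatMap fun i =>
    (Finset.univ : Finset (Fin n)).toList.map fun j => rot c (i, j) t

theorem mem_rots {c : Corner n} {t : ℝ} {F : I →ᵇ DropFibre n} (h : F ∈ rots c t) :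
    ∃ ij, rot c ij t = F := by
  simp only [rots, List.mem_flatMap, List.mem_map] at h
  obtain ⟨i, -, j, -, rfl⟩ := h
  exact ⟨(i, j), rfl⟩

theorem length_rots (c : Corner n) (t : ℝ) : (rots c t).length = (n + 1) * n := by
  simp [rots, List.length_flatMap, Finset.length_toList]

/-- Evaluation at a point. -/
def evalHom (s : I) : (I →ᵇ DropFibre n) →+* DropFibre n where
  toFun f := f s
  map_one' := rfl
  map_mul' _ _ := rfl
  map_zero' := rfl
  map_add' _ _ := rfl

theorem evalHom_apply (s : I) (f : I →ᵇ DropFibre n) : evalHom s f = f s := rfl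

theorem map_rots_zero (c : Corner n) (t : ℝ) :
    (listPoly (rots c t)).map (evalHom 0) =
      (listPoly ((Finset.univ : Finset (Fin n)).toList.map fun j => segProj j c.2 t)).map
        smallHom := by
  rw [map_listPoly, map_listPoly, rots, List.map_flatMap, List.map_map]
  refine Eq.trans ?_ (listPoly_blocks (Finset.univ : Finset (Fin n)).toList
      (fun i : Option (Fin n) => largeHom (Matrix.single i i 1))
      (fun j => smallHom (segProj j c.2 t)) ?_ ?_ ?_ fun i j => commute_large_small _ _)
  · congr 1
    refine List.flatMap_congr fun i _ => ?_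
    rw [List.map_map]
    refine List.map_congr_left fun j _ => ?_
    simp [evalHom_apply, rot_apply, rotVal, segProj_zero]
  · intro i; rw [← map_mul, Matrix.single_mul_single_same, one_mul]
  · intro i j h; rw [← map_mul, Matrix.single_mul_single_of_ne _ _ _ _ h, map_zero]
  · rw [← map_sum, Matrix.sum_single_one, map_one]

theorem listPoly_rows (g : Option (Fin n) → DropFibre n) (hg : ∀ i x, Commute (smallHom x) (g i)) :
    listPoly ((Finset.univ : Finset (Option (Fin n))).toList.flatMap fun i =>
      (Finset.univ : Finset (Fin n)).toList.map fun j => smallHom (Matrix.single j j 1) * g i)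
      = listPoly ((Finset.univ : Finset (Option (Fin n))).toList.map g) := by
  rw [listPoly_flatMap, listPoly, List.map_map]
  congr 1
  refine List.map_congr_left fun i _ => ?_
  refine listPoly_orth _ _ (fun j k h => ?_) ?_ fun j => hg i _
  · rw [← map_mul, Matrix.single_mul_single_of_ne _ _ _ _ h, map_zero]
  · rw [← map_sum, Matrix.sum_single_one, map_one]

theorem map_rots_one (c : Corner n) (t : ℝ) :
    (listPoly (rots c t)).map (evalHom 1) =
      (listPoly ((Finset.univ : Finset (Option (Fin n))).toList.map fun i => segProj i c.1 t)).map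
        largeHom := by
  rw [map_listPoly, map_listPoly, rots, List.map_flatMap, List.map_map]
  refine Eq.trans ?_ (listPoly_rows (fun i => largeHom (segProj i c.1 t))
    fun i x => (commute_large_small _ _).symm)
  congr 1
  refine List.flatMap_congr fun i _ => ?_
  rw [List.map_map]
  refine List.map_congr_left fun j _ => ?_
  simp [evalHom_apply, rot_apply, rotVal, segProj_zero]
  norm_num [segProj_zero, (commute_large_small _ _).eq]

theorem rots_at_zero (c : Corner n) : listPoly (rots c 0) = X := by
  have h : ∀ i j, rot c (i, j) 0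
      = BoundedContinuousFunction.const I (largeHom (Matrix.single i i 1)) *
        BoundedContinuousFunction.const I (smallHom (Matrix.single j j 1)) := by
    intro i j
    ext s : 1
    simp [rot_apply, rotVal, segProj_zero]
  let k : DropFibre n →+* (I →ᵇ DropFibre n) :=
    { toFun := BoundedContinuousFunction.const I
      map_one' := rfl
      map_mul' := fun _ _ => rfl
      map_zero' := rfl
      map_add' := fun _ _ => rfl }
  have hr : rots c 0 = (Finset.univ : Finset (Option (Fin n))).toList.flatMap fun i =>
      (Finset.univ : Finset (Fin n)).toList.map fun j =>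
        k (largeHom (Matrix.single i i 1)) * k (smallHom (Matrix.single j j 1)) :=
    List.flatMap_congr fun i _ => List.map_congr_left fun j _ => h i j
  rw [hr, listPoly_blocks _ _ (fun j => k (smallHom (Matrix.single j j 1))),
    show (fun j : Fin n => k (smallHom (Matrix.single j j 1)))
      = fun j => k (smallHom (Matrix.single j j 1)) * 1 from funext fun j => (mul_one _).symm,
    listPoly_orth]
  · simp [factor]
  · intro i j h; rw [← map_mul, ← map_mul, Matrix.single_mul_single_of_ne _ _ _ _ h]; simp
  · rw [← map_sum, ← map_sum, Matrix.sum_single_one]; simp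
  · exact fun i => Commute.one_right _
  · intro i; rw [← map_mul, ← map_mul, Matrix.single_mul_single_same, one_mul]
  · intro i j h; rw [← map_mul, ← map_mul, Matrix.single_mul_single_of_ne _ _ _ _ h]; simp
  · rw [← map_sum, ← map_sum, Matrix.sum_single_one]; simp
  · exact fun i j => (commute_large_small _ _).map k

theorem rot_orth {c c' : Corner n} (h₁ : c.1 ≠ c'.1) (h₂ : c.2 ≠ c'.2) (ij kl : Corner n) :
    rot c ij 1 * rot c' kl 1 = 0 := by
  ext s : 1
  simp only [BoundedContinuousFunction.coe_mul, Pi.mul_apply, rot_apply, rotVal, one_mul,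
    BoundedContinuousFunction.coe_zero, Pi.zero_apply]
  rw [(commute_large_small _ _).symm.mul_mul_mul_comm, ← map_mul, ← map_mul]
  rcases le_total ((s : ℝ)) (1 / 2) with hs | hs
  · rw [min_eq_left (show (1 : ℝ) ≤ 2 - 2 * s by linarith), segProj_one, segProj_one,
      Matrix.single_mul_single_of_ne _ _ _ _ h₂, map_zero, mul_zero]
  · rw [min_eq_left (show (1 : ℝ) ≤ 2 * s by linarith), segProj_one, segProj_one,
      Matrix.single_mul_single_of_ne _ _ _ _ h₁, map_zero, zero_mul]

theorem listPoly_coeff_mem (c : Corner n) (t : ℝ) (k : ℕ) :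
    (listPoly (rots c t)).coeff k ∈ dropAlg n := by
  refine mem_dropAlg.2 ⟨?_, ?_⟩
  · have := congrArg (fun p => p.coeff k) (map_rots_zero c t)
    simp only [coeff_map] at this
    exact ⟨_, this⟩
  · have := congrArg (fun p => p.coeff k) (map_rots_one c t)
    simp only [coeff_map] at this
    exact ⟨_, this⟩

theorem dualPoly_coeff_mem (c : Corner n) (t : ℝ) (k : ℕ) :
    (dualPoly (rots c t)).coeff k ∈ dropAlg n := by
  rcases lt_or_ge (rots c t).length k with h | h
  · rw [coeff_dualPoly_of_lt _ h]; exact zero_mem _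
  · rw [star_coeff_listPoly (fun F hF => by obtain ⟨ij, rfl⟩ := mem_rots hF; exact star_rot _ _ _)
      k ((rots c t).length - k) (by omega)]
    exact star_mem (listPoly_coeff_mem c t _)

theorem continuous_coeff_rots (c : Corner n) (k : ℕ) :
    Continuous fun t => (listPoly (rots c t)).coeff k := by
  suffices H : ∀ L : List (Corner n), ∀ k,
      Continuous fun t => (listPoly (L.map fun ij => rot c ij t)).coeff k by
    have := H ((Finset.univ : Finset (Option (Fin n))).toList.flatMap fun i =>
      (Finset.univ : Finset (Fin n)).toList.map fun j => (i, j)) k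
    simpa [rots, List.map_flatMap, List.map_map, Function.comp_def] using this
  intro L
  induction L with
  | nil => intro k; simpa [listPoly] using continuous_const
  | cons ij L ih =>
    intro k
    have hr := continuous_rot c ij
    simp only [List.map_cons, listPoly_cons]
    rcases k with - | k
    · simp only [coeff_factor_mul_zero]
      exact (continuous_const.sub hr).fun_mul (ih 0)
    · simp only [coeff_factor_mul_succ]
      exact ((continuous_const.sub hr).fun_mul (ih _)).add (hr.fun_mul (ih _))

section Eval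

/-- The polynomial, with coefficients in `Z_{n,n+1}`. -/
def dropPoly (c : Corner n) (t : ℝ) : (dropAlg n)[X] :=
  ∑ k ∈ Finset.range ((rots c t).length + 1),
    monomial k ⟨(listPoly (rots c t)).coeff k, listPoly_coeff_mem c t k⟩

/-- The dual polynomial, likewise. -/
def dropDual (c : Corner n) (t : ℝ) : (dropAlg n)[X] :=
  ∑ k ∈ Finset.range ((rots c t).length + 1),
    monomial k ⟨(dualPoly (rots c t)).coeff k, dualPoly_coeff_mem c t k⟩

/-- The inclusion. -/
def dropIncl : dropAlg n →+* (I →ᵇ DropFibre n) := (dropAlg n).subtype.toAlgHom.toRingHom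

theorem map_dropPoly (c : Corner n) (t : ℝ) :
    (dropPoly c t).map dropIncl = listPoly (rots c t) := by
  refine (Polynomial.ext fun k => ?_)
  simp only [dropPoly, Polynomial.map_sum, map_monomial, finsetSum_coeff, coeff_monomial,
    Finset.sum_ite_eq', Finset.mem_range]
  split_ifs with h
  · rfl
  · rw [coeff_listPoly_of_lt _ (by omega)]

theorem map_dropDual (c : Corner n) (t : ℝ) :
    (dropDual c t).map dropIncl = dualPoly (rots c t) := by
  refine (Polynomial.ext fun k => ?_)
  simp only [dropDual, Polynomial.map_sum, map_monomial, finsetSum_coeff, coeff_monomial,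
    Finset.sum_ite_eq', Finset.mem_range]
  split_ifs with h
  · rfl
  · rw [coeff_dualPoly_of_lt _ (by omega)]

theorem dropIncl_injective : Function.Injective (dropIncl (n := n)) := fun _ _ h => Subtype.ext h

theorem dropDual_mul (c : Corner n) (t : ℝ) :
    dropDual c t * dropPoly c t = X ^ (rots c t).length ∧
      dropPoly c t * dropDual c t = X ^ (rots c t).length := by
  have h := dualPoly_mul (l := rots c t) fun F hF => by
    obtain ⟨ij, rfl⟩ := mem_rots hF; exact rot_idem _ _ _
  constructor <;> refine Polynomial.map_injective _ dropIncl_injective ?_ <;>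
    simp [Polynomial.map_mul, map_dropPoly, map_dropDual, h.1, h.2]

variable {E : Type} [CStarAlgebra E] (φ : dropAlg n →⋆ₐ[ℂ] E) {a : E}
  (ha : a ∈ unitary E) (hc : ∀ z, Commute (φ z) a)

/-- Evaluation at a unitary commuting with the copy. -/
def evalAtElt : (dropAlg n)[X] →+* E :=
  Polynomial.eval₂RingHom' φ.toAlgHom.toRingHom a hc

theorem evalAtElt_monomial (k : ℕ) (z : dropAlg n) :
    evalAtElt φ hc (monomial k z) = φ z * a ^ k := by
  simp [evalAtElt, eval₂RingHom']

/-- The rotated unitary. -/
def rotated (c : Corner n) (t : ℝ) : E := evalAtElt φ hc (dropPoly c t)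

theorem rotated_eq (c : Corner n) (t : ℝ) :
    rotated φ hc c t = ∑ k ∈ Finset.range ((n + 1) * n + 1),
      φ ⟨(listPoly (rots c t)).coeff k, listPoly_coeff_mem c t k⟩ * a ^ k := by
  simp only [rotated, dropPoly, map_sum, evalAtElt_monomial, length_rots]

theorem continuous_rotated [NeZero n] (c : Corner n) : Continuous (rotated φ hc c) := by
  simp only [funext (rotated_eq φ hc c)]
  refine continuous_finsetSum _ fun k _ => Continuous.fun_mul ?_ continuous_const
  exact (AddMonoidHomClass.continuous_of_bound φ 1 fun y => by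
    simpa using NonUnitalStarAlgHom.norm_apply_le φ y).comp
    ((continuous_coeff_rots c k).subtype_mk _)

theorem rotated_zero (c : Corner n) : rotated φ hc c 0 = a := by
  have h : dropPoly c 0 = X :=
    Polynomial.map_injective _ dropIncl_injective (by rw [map_dropPoly, rots_at_zero, map_X])
  rw [rotated, h]
  simp [evalAtElt, eval₂RingHom']

include ha in
theorem rotated_mem (c : Corner n) (t : ℝ) : rotated φ hc c t ∈ unitary E := by
  set N := (rots c t).length
  set U := rotated φ hc c t
  set U' := evalAtElt φ hc (dropDual c t)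
  have hX : evalAtElt φ hc (X ^ N) = a ^ N := by simp [evalAtElt, eval₂RingHom']
  have h1 : U' * U = a ^ N := by
    simp only [U, U', rotated, ← map_mul, (dropDual_mul c t).1, N, hX]
  have h2 : U * U' = a ^ N := by
    simp only [U, U', rotated, ← map_mul, (dropDual_mul c t).2, N, hX]
  have ha1 : star a * a = 1 := Unitary.star_mul_self_of_mem ha
  have ha2 : a * star a = 1 := Unitary.mul_star_self_of_mem ha
  have hcs : ∀ z, Commute (φ z) (star a) := fun z => by
    have := (hc (star z)).star_star
    rwa [map_star, star_star] at this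
  have hp : ∀ k, star a ^ k * a ^ k = 1 := fun k => by
    rw [← (show Commute (star a) a from ha1.trans ha2.symm).mul_pow, ha1, one_pow]
  have hp' : ∀ k, a ^ k * star a ^ k = 1 := fun k => by
    rw [← (show Commute a (star a) from ha2.trans ha1.symm).mul_pow, ha2, one_pow]
  have hU : star U = star a ^ N * U' := by
    have hs : ∀ F ∈ rots c t, star F = F := fun F hF => by
      obtain ⟨ij, rfl⟩ := mem_rots hF; exact star_rot _ _ _
    simp only [U, U', rotated, dropPoly, dropDual, map_sum, evalAtElt_monomial, star_sum,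
      Finset.mul_sum]
    rw [← Finset.sum_range_reflect]
    refine Finset.sum_congr rfl fun k hk => ?_
    have hk' : k ≤ N := Nat.lt_succ_iff.1 (Finset.mem_range.1 hk)
    have hj : N + 1 - 1 - k = N - k := by omega
    simp only [show (rots c t).length = N from rfl, hj, star_mul, star_pow, ← map_star φ]
    have e : star (⟨(listPoly (rots c t)).coeff (N - k), listPoly_coeff_mem c t _⟩ : dropAlg n)
        = ⟨(dualPoly (rots c t)).coeff k, dualPoly_coeff_mem c t k⟩ :=
      Subtype.ext (star_coeff_listPoly hs k (N - k) (Nat.add_sub_cancel' hk')).symm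
    rw [e, ← ((hcs _).pow_right _).eq, ← mul_assoc, ← ((hcs _).pow_right N).eq, mul_assoc]
    congr 1
    conv_rhs => rw [show N = (N - k) + k by omega, pow_add, mul_assoc, hp, mul_one]
  refine Unitary.mem_iff.2 ⟨by rw [hU, mul_assoc, h1, hp], ?_⟩
  have hcU : Commute (star a ^ N) U := by
    simp only [U, rotated, dropPoly, map_sum, evalAtElt_monomial]
    exact Commute.sum_right _ _ _ fun k _ => ((hcs _).symm.pow_left N).mul_right
      (((show Commute (star a) a from ha1.trans ha2.symm).pow_pow N k))
  rw [hU, ← mul_assoc, ← hcU.eq, mul_assoc, h2, hp]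

variable {b : E} (hd : ∀ z, Commute (φ z) b)

theorem rotated_commute {c c' : Corner n} (h₁ : c.1 ≠ c'.1) (h₂ : c.2 ≠ c'.2) :
    Commute (rotated φ hc c 1) (rotated φ hd c' 1) := by
  set p := dropPoly c 1
  set q := dropPoly c' 1
  have key : ∀ k l, (p - 1).coeff k * (q - 1).coeff l = 0 ∧
      (q - 1).coeff l * (p - 1).coeff k = 0 := by
    intro k l
    have hval : ∀ (c : Corner n) (k : ℕ), (((dropPoly c 1 - 1).coeff k : dropAlg n) :
        I →ᵇ DropFibre n) = (listPoly (rots c 1) - 1).coeff k := fun c k => by
      rw [← map_dropPoly, ← Polynomial.map_one dropIncl, ← Polynomial.map_sub, coeff_map]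
      rfl
    have h1 : ∀ F ∈ rots c 1, F * (listPoly (rots c' 1) - 1).coeff l = 0 ∧
        (listPoly (rots c' 1) - 1).coeff l * F = 0 := by
      intro F hF
      obtain ⟨ij, rfl⟩ := mem_rots hF
      exact (coeff_sub_one_mul (listPoly_mul_C fun G hG => by
        obtain ⟨kl, rfl⟩ := mem_rots hG
        exact ⟨rot_orth (Ne.symm h₁) (Ne.symm h₂) _ _, rot_orth h₁ h₂ _ _⟩) l).symm
    have h := coeff_sub_one_mul (listPoly_mul_C h1) k
    exact ⟨Subtype.ext (by rw [MulMemClass.coe_mul, hval, hval]; exact h.1),
      Subtype.ext (by rw [MulMemClass.coe_mul, hval, hval]; exact h.2)⟩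
  have e : ∀ (x : E) (hx : ∀ z, Commute (φ z) x) (r : (dropAlg n)[X]),
      evalAtElt φ hx r = ∑ k ∈ Finset.range (r.natDegree + 1), φ (r.coeff k) * x ^ k := by
    intro x hx r
    show Polynomial.eval₂ (φ.toAlgHom.toRingHom : dropAlg n →+* E) x r = _
    exact Polynomial.eval₂_eq_sum_range _ _
  have h0 : ∀ k l, (φ ((p - 1).coeff k) * a ^ k) * (φ ((q - 1).coeff l) * b ^ l) = 0 ∧
      (φ ((q - 1).coeff l) * b ^ l) * (φ ((p - 1).coeff k) * a ^ k) = 0 := by
    intro k l
    constructor
    · rw [mul_assoc, ← mul_assoc (a ^ k), ← ((hc _).pow_right k).eq, mul_assoc (φ _) (a ^ k),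
        ← mul_assoc, ← map_mul, (key k l).1, map_zero, zero_mul]
    · rw [mul_assoc, ← mul_assoc (b ^ l), ← ((hd _).pow_right l).eq, mul_assoc (φ _) (b ^ l),
        ← mul_assoc, ← map_mul, (key k l).2, map_zero, zero_mul]
  have z1 : evalAtElt φ hc (p - 1) * evalAtElt φ hd (q - 1) = 0 := by
    rw [e, e, Finset.sum_mul_sum]
    exact Finset.sum_eq_zero fun k _ => Finset.sum_eq_zero fun l _ => (h0 k l).1
  have z2 : evalAtElt φ hd (q - 1) * evalAtElt φ hc (p - 1) = 0 := by
    rw [e, e, Finset.sum_mul_sum]
    exact Finset.sum_eq_zero fun l _ => Finset.sum_eq_zero fun k _ => (h0 k l).2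
  have hsplit : ∀ (x : E) (hx : ∀ z, Commute (φ z) x) (r : (dropAlg n)[X]),
      evalAtElt φ hx r = 1 + evalAtElt φ hx (r - 1) := fun x hx r => by
    rw [map_sub, map_one]; abel
  show evalAtElt φ hc p * evalAtElt φ hd q = evalAtElt φ hd q * evalAtElt φ hc p
  rw [hsplit a hc p, hsplit b hd q, add_mul, add_mul, mul_add, mul_add, mul_add, mul_add, z1, z2]
  noncomm_ring

end Eval

/-- A commutator that commutes with a copy of `Z_{n,n+1}`, `n ≥ 2`, is joined to `1`. -/
theorem joined_commutator [NeZero n] (hn : 2 ≤ n) {E : Type} [CStarAlgebra E]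
    (φ : dropAlg n →⋆ₐ[ℂ] E) (a b : unitary E) (ha : ∀ z, Commute (φ z) (a : E))
    (hb : ∀ z, Commute (φ z) (b : E)) :
    Joined (1 : unitary E) (a * b * star a * star b) := by
  let c : Corner n := (none, ⟨0, by omega⟩)
  let c' : Corner n := (some ⟨0, by omega⟩, ⟨1, by omega⟩)
  let U : ℝ → unitary E := fun t => ⟨rotated φ ha c t, rotated_mem φ a.2 ha c t⟩
  let V : ℝ → unitary E := fun t => ⟨rotated φ hb c' t, rotated_mem φ b.2 hb c' t⟩
  have hUc : Continuous U := (continuous_rotated φ ha c).subtype_mk _
  have hVc : Continuous V := (continuous_rotated φ hb c').subtype_mk _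
  have hU0 : U 0 = a := Subtype.ext (rotated_zero φ ha c)
  have hV0 : V 0 = b := Subtype.ext (rotated_zero φ hb c')
  have h1 : U 1 * V 1 = V 1 * U 1 :=
    Subtype.ext (rotated_commute φ ha hb (by simp [c, c']) (by simp [c, c', Fin.ext_iff])).eq
  have hW : Continuous fun t : I => U t * V t * star (U t) * star (V t) := by
    have hs : Continuous fun t : I => (t : ℝ) := continuous_subtype_val
    have hu := hUc.comp hs
    have hv := hVc.comp hs
    exact ((hu.mul hv).mul hu.star).mul hv.star
  refine Joined.symm ⟨⟨⟨_, hW⟩, ?_, ?_⟩⟩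
  · simp [hU0, hV0]
  · show U ((1 : I) : ℝ) * V ((1 : I) : ℝ) * star (U ((1 : I) : ℝ)) * star (V ((1 : I) : ℝ)) = 1
    simp only [Set.Icc.coe_one]
    rw [h1, mul_assoc, mul_assoc, ← mul_assoc (U 1), Unitary.mul_star_self, one_mul,
      Unitary.mul_star_self]

end

end Vale.Agent.P095.All.Flip
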