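import Vale.Agent.P095.All.FA.Basic
import Vale.Agent.P095.All.FA.Props.Proj

/-!
# P095: a C*-algebra commuting with a copy of `A`, acting on the products with `A`
-/

namespace Vale.Agent.P095.All

open Filter Topology
open scoped MultiplierAlgebra

noncomputable section

namespace Rel

variable {A E : Type} [NonUnitalCStarAlgebra A] [CStarAlgebra E] (J : A →⋆ₙₐ[ℂ] E)

/-- The closed algebra generated by the products `J(a) z J(b)`. -/
def herOf : NonUnitalStarSubalgebra ℂ E :=
  (NonUnitalStarAlgebra.adjoin ℂ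
    (Set.range fun p : A × E × A => J p.1 * p.2.1 * J p.2.2)).topologicalClosure

instance isClosed_herOf : IsClosed (herOf J : Set E) :=
  NonUnitalStarSubalgebra.isClosed_topologicalClosure _

theorem image_mem_herOf (a : A) : J a ∈ herOf J := by
  refine (isClosed_herOf J).closure_subset
    (map_mem_closure (continuous_nonUnitalHom J) (mem_closure_products a) ?_)
  rintro _ ⟨⟨a, b⟩, rfl⟩
  refine subset_closure (NonUnitalStarAlgebra.subset_adjoin ℂ _ ⟨(a, 1, b), ?_⟩)
  show J a * 1 * J b = J (a * b)
  rw [mul_one, map_mul]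

variable {J}

theorem mul_mem_herOf {x : E} (hx : ∀ a, Commute x (J a)) {y : E} (hy : y ∈ herOf J) :
    x * y ∈ herOf J ∧ y * x ∈ herOf J := by
  set S := NonUnitalStarAlgebra.adjoin ℂ (Set.range fun p : A × E × A => J p.1 * p.2.1 * J p.2.2)
  have key : ∀ z ∈ S, ∀ x : E, (∀ a, Commute x (J a)) → x * z ∈ S ∧ z * x ∈ S := by
    intro z hz
    induction hz using NonUnitalStarAlgebra.adjoin_induction with
    | mem z hz =>
      obtain ⟨⟨a, w, b⟩, rfl⟩ := hz
      intro x hx
      refine ⟨NonUnitalStarAlgebra.subset_adjoin ℂ _ ⟨(a, x * w, b), ?_⟩,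
        NonUnitalStarAlgebra.subset_adjoin ℂ _ ⟨(a, w * x, b), ?_⟩⟩
      · show J a * (x * w) * J b = x * (J a * w * J b)
        rw [← mul_assoc, ← mul_assoc, ← mul_assoc, (hx a).eq]
      · show J a * (w * x) * J b = J a * w * J b * x
        rw [mul_assoc (J a * w), ← (hx b).eq]
        simp only [mul_assoc]
    | add p q _ _ hp hq =>
      exact fun x hx => ⟨by rw [mul_add]; exact add_mem (hp x hx).1 (hq x hx).1,
        by rw [add_mul]; exact add_mem (hp x hx).2 (hq x hx).2⟩
    | zero =>
      exact fun x _ => ⟨by rw [mul_zero]; exact zero_mem _, by rw [zero_mul]; exact zero_mem _⟩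
    | mul p q hpS hqS hp hq =>
      exact fun x hx => ⟨by rw [← mul_assoc]; exact mul_mem (hp x hx).1 hqS,
        by rw [mul_assoc]; exact mul_mem hpS (hq x hx).2⟩
    | smul r p _ hp =>
      exact fun x hx => ⟨by rw [mul_smul_comm]; exact SMulMemClass.smul_mem _ (hp x hx).1,
        by rw [smul_mul_assoc]; exact SMulMemClass.smul_mem _ (hp x hx).2⟩
    | star p _ hp =>
      intro x hx
      have hx' : ∀ a, Commute (star x) (J a) := fun a => by
        have := (hx (star a)).star_star
        rwa [map_star, star_star] at this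
      exact ⟨by simpa using star_mem (hp (star x) hx').2, by simpa using star_mem (hp (star x) hx').1⟩
  have hy' : y ∈ closure (S : Set E) := hy
  exact ⟨map_mem_closure (f := fun z => x * z) (by fun_prop) hy' fun z hz => (key z hz x hx).1,
    map_mem_closure (f := fun z => z * x) (by fun_prop) hy' fun z hz => (key z hz x hx).2⟩

variable (J) (M : StarSubalgebra ℂ E) (hM : ∀ x ∈ M, ∀ a, Commute x (J a))

/-- An element as a multiplier. -/
def toMul (x : M) : 𝓜(ℂ, herOf J) where
  toProd :=
    (LinearMap.mkContinuous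
      { toFun := fun y => ⟨(x : E) * y.1, (mul_mem_herOf (hM _ x.2) y.2).1⟩
        map_add' := fun _ _ => Subtype.ext (mul_add _ _ _)
        map_smul' := fun r _ => Subtype.ext (mul_smul_comm r _ _) } ‖(x : E)‖
      fun y => norm_mul_le (x : E) y.1,
    LinearMap.mkContinuous
      { toFun := fun y => ⟨y.1 * (x : E), (mul_mem_herOf (hM _ x.2) y.2).2⟩
        map_add' := fun _ _ => Subtype.ext (add_mul _ _ _)
        map_smul' := fun r _ => Subtype.ext (smul_mul_assoc r _ _) } ‖(x : E)‖
      fun y => (norm_mul_le y.1 (x : E)).trans_eq (mul_comm _ _))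
  central _ _ := Subtype.ext (mul_assoc _ _ _)

theorem toMul_fst (x : M) (y : herOf J) : ((toMul J M hM x).fst y : E) = (x : E) * y.1 := rfl

theorem toMul_snd (x : M) (y : herOf J) : ((toMul J M hM x).snd y : E) = y.1 * (x : E) := rfl

theorem multiplier_ext_val {P Q : 𝓜(ℂ, herOf J)} (h₁ : ∀ y, (P.fst y : E) = Q.fst y)
    (h₂ : ∀ y, (P.snd y : E) = Q.snd y) : P = Q :=
  DoubleCentralizer.ext _ _ _ _ (Prod.ext (ContinuousLinearMap.ext fun y => Subtype.ext (h₁ y))
    (ContinuousLinearMap.ext fun y => Subtype.ext (h₂ y)))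

/-- The representation on the products with `A`. -/
def repOf : M →⋆ₐ[ℂ] 𝓜(ℂ, herOf J) where
  toFun := toMul J M hM
  map_one' := by apply multiplier_ext_val <;> intro y <;> simp [toMul_fst, toMul_snd]
  map_zero' := by apply multiplier_ext_val <;> intro y <;> simp [toMul_fst, toMul_snd]
  map_mul' x z := by
    apply multiplier_ext_val <;> intro y <;> simp [toMul_fst, toMul_snd, mul_assoc]
  map_add' x z := by
    apply multiplier_ext_val <;> intro y <;> simp [toMul_fst, toMul_snd, add_mul, mul_add]
  commutes' r := by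
    apply multiplier_ext_val <;> intro y <;>
      simp [toMul_fst, toMul_snd, Algebra.algebraMap_eq_smul_one]
  map_star' x := by
    apply multiplier_ext_val <;> intro y <;> simp [toMul_fst, toMul_snd]

variable {J M hM}

theorem repOf_eq_of {x y : M} (h : ∀ a, (x : E) * J a = (y : E) * J a) :
    repOf J M hM x = repOf J M hM y := by
  have key : ∀ q ∈ NonUnitalStarAlgebra.adjoin ℂ (Set.range fun p : A × E × A => J p.1 * p.2.1 * J p.2.2),
      ∀ z : E, (∀ a, z * J a = 0) → (∀ a, Commute z (J a)) → z * q = 0 ∧ q * z = 0 := by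
    intro q hq
    induction hq using NonUnitalStarAlgebra.adjoin_induction with
    | mem q hq =>
      obtain ⟨⟨a, w, b⟩, rfl⟩ := hq
      exact fun z h0 hz => ⟨by rw [← mul_assoc, ← mul_assoc, h0, zero_mul, zero_mul],
        by rw [mul_assoc, ← (hz b).eq, h0, mul_zero]⟩
    | add p q _ _ hp hq =>
      exact fun z h0 hz => by simp [mul_add, add_mul, hp z h0 hz, hq z h0 hz]
    | zero => simp
    | mul p q _ _ hp hq =>
      exact fun z h0 hz => ⟨by rw [← mul_assoc, (hp z h0 hz).1, zero_mul],
        by rw [mul_assoc, (hq z h0 hz).2, mul_zero]⟩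
    | smul r p _ hp =>
      exact fun z h0 hz => by simp [hp z h0 hz]
    | star p _ hp =>
      intro z h0 hz
      have hs : ∀ a, Commute (star z) (J a) := fun a => by
        have := (hz (star a)).star_star
        rwa [map_star, star_star] at this
      have h0s : ∀ a, star z * J a = 0 := fun a => by
        have := congrArg star ((hz (star a)).symm.eq.trans (h0 (star a)))
        rwa [star_mul, map_star, star_star, star_zero] at this
      obtain ⟨h1, h2⟩ := hp (star z) h0s hs
      exact ⟨by simpa using congrArg star h2, by simpa using congrArg star h1⟩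
  have hz : ∀ a, Commute ((x : E) - y) (J a) := fun a => (hM _ x.2 a).sub_left (hM _ y.2 a)
  have h0 : ∀ a, ((x : E) - y) * J a = 0 := fun a => by rw [sub_mul, h, sub_self]
  have H : ∀ q ∈ herOf J, ((x : E) - y) * q = 0 ∧ q * ((x : E) - y) = 0 := fun q hq =>
    closure_minimal (fun q hq => key q hq _ h0 hz)
      ((isClosed_eq (by fun_prop) continuous_const).inter
        (isClosed_eq (by fun_prop) continuous_const) :
        IsClosed {q : E | ((x : E) - y) * q = 0 ∧ q * ((x : E) - y) = 0}) hq
  refine multiplier_ext_val J (fun q => ?_) fun q => ?_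
  · exact sub_eq_zero.1 ((sub_mul _ _ _).symm.trans (H q.1 q.2).1)
  · exact sub_eq_zero.1 ((mul_sub _ _ _).symm.trans (H q.1 q.2).2)

theorem norm_mul_image_le (x : M) (a : A) : ‖(x : E) * J a‖ ≤ ‖repOf J M hM x‖ * ‖a‖ := by
  have h : ‖((repOf J M hM x).fst ⟨J a, image_mem_herOf J a⟩ : E)‖
      ≤ ‖(repOf J M hM x).fst‖ * ‖J a‖ := (repOf J M hM x).fst.le_opNorm ⟨J a, image_mem_herOf J a⟩
  rw [DoubleCentralizer.norm_fst] at h
  exact h.trans (mul_le_mul_of_nonneg_left (NonUnitalStarAlgHom.norm_apply_le _ a) (norm_nonneg _))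

variable (J M hM)

theorem isClosed_range [IsClosed (M : Set E)] :
    IsClosed ((repOf J M hM).range : Set 𝓜(ℂ, herOf J)) := by
  refine isClosed_of_closure_subset fun y hy => ?_
  have hs : ((repOf J M hM).range : Set 𝓜(ℂ, herOf J)) ⊆ Set.range (repOf J M hM) := by
    intro z hz
    obtain ⟨x, hx⟩ := hz
    exact ⟨x, hx⟩
  obtain ⟨x, hx, -⟩ := exists_preimage_of_mem_closure (repOf J M hM) (y := y) (closure_mono hs hy)
  exact ⟨x, hx⟩

end Rel

end

end Vale.Agent.P095.All
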